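import Mathlib
import Vale.Agent.P150.Scalar
import Vale.Agent.P150.Fast.Cavity.Gibbs
import Vale.Agent.P150.Fast.StepKL

/-!
The scalar side of the entropy chain of P150: the magnetisation and the site entropy under the law
`N(γ, γ)`, the fixed point of a pinned fraction, and the area bound that gives the annealed entropy.
-/

open MeasureTheory ProbabilityTheory Real Finset

namespace Vale.Agent.P150.Fast.Entropy

/-- The entropy of a spin with magnetisation `tanh μ`. -/
noncomputable def siteH (μ : ℝ) : ℝ := binEntropy ((1 + tanh μ) / 2)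

/-- The squared magnetisation under `N(γ, γ)`. -/
noncomputable def psi (γ : ℝ) : ℝ := nE γ γ fun x => tanh x ^ 2

/-- The site entropy under `N(γ, γ)`. -/
noncomputable def hFun (γ : ℝ) : ℝ := nE γ γ siteH

theorem continuous_tanh' : Continuous tanh :=
  continuous_iff_continuousAt.2 fun y => (hasDerivAt_tanh' y).continuousAt

theorem tanh_sq_le (x : ℝ) : tanh x ^ 2 ≤ 1 :=
  (sq_le_one_iff_abs_le_one _).2 (abs_tanh_lt_one x).le

theorem continuous_siteH : Continuous siteH :=
  binEntropy_continuous.comp ((continuous_const.add continuous_tanh').div_const 2)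

theorem siteH_mem (μ : ℝ) : 0 ≤ siteH μ ∧ siteH μ ≤ log 2 := by
  have h := abs_lt.1 (abs_tanh_lt_one μ)
  exact ⟨binEntropy_nonneg (by linarith [h.1]) (by linarith [h.2]), binEntropy_le_log_two⟩

theorem log_two_le_one : log 2 ≤ 1 := (log_le_sub_one_of_pos two_pos).trans (by norm_num)

theorem abs_siteH_le (μ : ℝ) : |siteH μ| ≤ 1 := by
  rw [abs_of_nonneg (siteH_mem μ).1]
  exact (siteH_mem μ).2.trans log_two_le_one

theorem siteH_neg (μ : ℝ) : siteH (-μ) = siteH μ := by
  rw [siteH, siteH, tanh_neg, ← binEntropy_one_sub]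
  congr 1
  ring

theorem hasDerivAt_siteH (μ : ℝ) : HasDerivAt siteH (-(μ * (1 - tanh μ ^ 2))) μ := by
  have h := abs_lt.1 (abs_tanh_lt_one μ)
  have hc := cosh_pos μ
  have e1 : (1 + tanh μ) / 2 = exp μ / (2 * cosh μ) := by
    rw [tanh_eq_sinh_div_cosh, sinh_eq, cosh_eq]; field_simp; ring
  have e2 : 1 - (1 + tanh μ) / 2 = exp (-μ) / (2 * cosh μ) := by
    rw [tanh_eq_sinh_div_cosh, sinh_eq, cosh_eq]; field_simp; ring
  have hd := (hasDerivAt_binEntropy (p := (1 + tanh μ) / 2) (by linarith [h.1]) (by linarith [h.2])).comp μ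
    (((hasDerivAt_tanh' μ).const_add 1).div_const 2)
  refine hd.congr_deriv ?_
  rw [e2, e1, log_div (exp_pos _).ne' (by positivity), log_div (exp_pos _).ne' (by positivity),
    log_exp, log_exp]
  ring

theorem abs_mul_sech_le (μ : ℝ) : |μ| * (1 - tanh μ ^ 2) ≤ 1 := by
  have hc := one_le_cosh μ
  have hμ : |μ| ≤ cosh μ := by
    rcases eq_or_ne |μ| 0 with h | h
    · rw [h]; linarith
    · rw [← cosh_abs]
      exact ((self_le_sinh_iff.2 (abs_nonneg μ)).trans_lt (sinh_lt_cosh _)).le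
  rw [one_sub_sq_tanh μ]
  rw [← div_eq_mul_one_div, div_le_one (by positivity)]
  nlinarith
where
  one_sub_sq_tanh (y : ℝ) : 1 - tanh y ^ 2 = 1 / cosh y ^ 2 := by
    rw [tanh_eq_sinh_div_cosh]
    field_simp
    linear_combination cosh_sq_sub_sinh_sq y

theorem nE_int {F : ℝ → ℝ} {B : ℝ} (hc : Continuous F) (hb : ∀ u, |F u| ≤ B) (a v : ℝ) :
    Integrable (fun g => F (a + √v * g)) (gaussianReal 0 1) :=
  (integrable_const B).mono' (by fun_prop) (ae_of_all _ fun g => hb _)

theorem abs_nE_le {F : ℝ → ℝ} {B : ℝ} (hb : ∀ u, |F u| ≤ B) (a v : ℝ) : |nE a v F| ≤ B := by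
  have h := norm_integral_le_of_norm_le_const (μ := gaussianReal 0 1) (f := fun g => F (a + √v * g))
    (C := B) (ae_of_all _ fun g => hb _)
  simpa [nE] using h

/-- The heat equation along `N(γ, γ)`. -/
theorem hasDerivAt_nE {F F' F'' : ℝ → ℝ} {B : ℝ} (hF : ∀ u, HasDerivAt F (F' u) u)
    (hF' : ∀ u, HasDerivAt F' (F'' u) u) (hc : Continuous F'') (h0 : ∀ u, |F u| ≤ B)
    (h1 : ∀ u, |F' u| ≤ B) (h2 : ∀ u, |F'' u| ≤ B) {γ : ℝ} (hγ : 0 < γ) :
    HasDerivAt (fun t => nE t t F) (nE γ γ F' + nE γ γ F'' / 2) γ := by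
  have cF : Continuous F := continuous_iff_continuousAt.2 fun u => (hF u).continuousAt
  have cF' : Continuous F' := continuous_iff_continuousAt.2 fun u => (hF' u).continuousAt
  have hB : 0 ≤ B := (abs_nonneg _).trans (h0 0)
  have hg : Integrable (fun g : ℝ => |g|) (gaussianReal 0 1) := by
    simpa using (integrable_pow_gauss 1).norm
  have hmem : Set.Ioi (γ / 2) ∈ nhds γ := Ioi_mem_nhds (by linarith)
  have key := hasDerivAt_integral_of_dominated_loc_of_deriv_le (μ := gaussianReal 0 1) (x₀ := γ)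
    (F := fun t g => F (t + √t * g))
    (F' := fun t g => F' (t + √t * g) * (1 + 1 / (2 * √t) * g))
    (bound := fun g => B * (1 + 1 / (2 * √(γ / 2)) * |g|)) hmem
    (Filter.Eventually.of_forall fun t => Continuous.aestronglyMeasurable (by fun_prop))
    (nE_int cF h0 γ γ) (Continuous.aestronglyMeasurable (by fun_prop))
    (ae_of_all _ fun g t (ht : γ / 2 < t) => by
      rw [norm_mul, Real.norm_eq_abs, Real.norm_eq_abs]
      refine mul_le_mul (h1 _) ((abs_add_le _ _).trans ?_) (abs_nonneg _) hB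
      rw [abs_one, abs_mul, abs_of_nonneg (by positivity : (0 : ℝ) ≤ 1 / (2 * √t))]
      gcongr)
    (((integrable_const (1 : ℝ)).add (hg.const_mul _)).const_mul B)
    (ae_of_all _ fun g t (ht : γ / 2 < t) => by
      have h := (hF (t + √t * g)).comp t
        ((hasDerivAt_id' t).add ((hasDerivAt_sqrt (by linarith : t ≠ 0)).mul_const g))
      exact h)
  refine key.2.congr_deriv ?_
  set s := √γ with hs
  have hs0 : 0 < s := Real.sqrt_pos.2 hγ
  have iu := nE_int cF' h1 γ γ
  have iu' : Integrable (fun g => F'' (γ + s * g) * s) (gaussianReal 0 1) :=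
    (nE_int hc h2 γ γ).mul_const _
  have iux : Integrable (fun g => g * F' (γ + s * g)) (gaussianReal 0 1) := by
    refine (hg.mul_const B).mono' (by fun_prop) (ae_of_all _ fun g => ?_)
    rw [norm_mul, Real.norm_eq_abs, Real.norm_eq_abs]
    exact mul_le_mul_of_nonneg_left (h1 _) (abs_nonneg _)
  have hib := P166.ibp_real (u := fun g => F' (γ + s * g)) (u' := fun g => F'' (γ + s * g) * s)
    (fun g => (hF' _).comp g (((hasDerivAt_id' g).const_mul s).const_add γ |>.congr_deriv (mul_one s)))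
    iu iu' iux
  rw [integral_mul_const] at hib
  have e : ∀ g, F' (γ + s * g) * (1 + 1 / (2 * s) * g)
      = F' (γ + s * g) + 1 / (2 * s) * (g * F' (γ + s * g)) := fun g => by ring
  rw [integral_congr_ae (ae_of_all _ e), integral_add iu (iux.const_mul _), integral_const_mul, hib]
  simp only [nE, ← hs]
  field_simp

theorem continuous_nE {F : ℝ → ℝ} {B : ℝ} (hc : Continuous F) (hb : ∀ u, |F u| ≤ B) :
    Continuous fun t => nE t t F :=
  continuous_of_dominated (bound := fun _ => B) (fun t => Continuous.aestronglyMeasurable (by fun_prop))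
    (fun t => ae_of_all _ fun g => hb _) (integrable_const B) (ae_of_all _ fun g => by fun_prop)

/-- Odd functions against `1 - tanh` vanish under `N(γ, γ)`. -/
theorem nE_odd {k : ℝ → ℝ} (hk : ∀ x, k (-x) = -k x) {γ : ℝ} (hγ : 0 ≤ γ) :
    nE γ γ (fun x => k x * (1 - tanh x)) = 0 := by
  set s := √γ with hs
  have hs2 : s * s = γ := mul_self_sqrt hγ
  set p := gaussianPDFReal 0 1 with hp
  rw [nE, integral_gaussianReal_eq_integral_smul one_ne_zero, ← hs, ← hp]
  simp only [smul_eq_mul]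
  rw [← integral_sub_right_eq_self _ s]
  have e : ∀ u, p (u - s) * (k (γ + s * (u - s)) * (1 - tanh (γ + s * (u - s))))
      = exp (-γ / 2) * (p u * (k (s * u) / cosh (s * u))) := fun u => by
    rw [show γ + s * (u - s) = s * u by linear_combination -hs2]
    have e1 : 1 - tanh (s * u) = exp (-(s * u)) / cosh (s * u) := by
      have := (cosh_pos (s * u)).ne'
      rw [← cosh_sub_sinh, tanh_eq_sinh_div_cosh]; field_simp
    have e2 : p (u - s) * exp (-(s * u)) = exp (-γ / 2) * p u := by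
      simp only [hp, gaussianPDFReal, NNReal.coe_one, mul_one, sub_zero]
      rw [mul_assoc, ← exp_add, mul_left_comm, ← exp_add]
      congr 2
      linear_combination -(1 / 2 : ℝ) * hs2
    rw [e1]
    linear_combination (k (s * u) / cosh (s * u)) * e2
  rw [integral_congr_ae (ae_of_all _ e), integral_const_mul]
  have hodd : ∫ u, p u * (k (s * u) / cosh (s * u)) = -∫ u, p u * (k (s * u) / cosh (s * u)) := by
    rw [← integral_neg]
    conv_lhs => rw [← integral_neg_eq_self]
    refine integral_congr_ae (ae_of_all _ fun u => ?_)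
    simp only [hp, gaussianPDFReal, sub_zero, neg_sq, mul_neg, hk, cosh_neg, neg_div]
  rw [show ∫ u, p u * (k (s * u) / cosh (s * u)) = 0 by linarith, mul_zero]

theorem nE_lin {F G : ℝ → ℝ} {B C : ℝ} (hF : Continuous F) (hG : Continuous G) (hb : ∀ u, |F u| ≤ B)
    (hc : ∀ u, |G u| ≤ C) (a v x y : ℝ) :
    nE a v (fun u => x * F u + y * G u) = x * nE a v F + y * nE a v G := by
  simp only [nE]
  rw [integral_add ((nE_int hF hb a v).const_mul x) ((nE_int hG hc a v).const_mul y),
    integral_const_mul, integral_const_mul]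

theorem hasDerivAt_psi {γ : ℝ} (hγ : 0 < γ) :
    HasDerivAt psi (nE γ γ fun x => (1 - tanh x ^ 2) ^ 2) γ := by
  have hs : ∀ x, 0 ≤ 1 - tanh x ^ 2 := fun x => sub_nonneg.2 (tanh_sq_le x)
  have b1 : ∀ x, |2 * tanh x * (1 - tanh x ^ 2)| ≤ 8 := fun x => by
    have := abs_lt.1 (abs_tanh_lt_one x)
    rw [abs_le]; constructor <;> nlinarith [hs x, sq_nonneg (tanh x)]
  have b2 : ∀ x, |2 * (1 - tanh x ^ 2) ^ 2 - 4 * tanh x ^ 2 * (1 - tanh x ^ 2)| ≤ 8 := fun x => by
    rw [abs_le]; constructor <;> nlinarith [hs x, sq_nonneg (tanh x), tanh_sq_le x]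
  have ct : Continuous tanh := continuous_tanh'
  have h := hasDerivAt_nE (F := fun x => tanh x ^ 2) (F' := fun x => 2 * tanh x * (1 - tanh x ^ 2))
    (F'' := fun x => 2 * (1 - tanh x ^ 2) ^ 2 - 4 * tanh x ^ 2 * (1 - tanh x ^ 2)) (B := 8)
    (fun u => ((hasDerivAt_tanh' u).pow 2).congr_deriv (by norm_num))
    (fun u => (((hasDerivAt_tanh' u).const_mul 2).mul (((hasDerivAt_tanh' u).pow 2).const_sub 1)).congr_deriv
      (by norm_num; ring))
    (by fun_prop) (fun u => by rw [abs_of_nonneg (sq_nonneg _)]; linarith [tanh_sq_le u]) b1 b2 hγ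
  refine h.congr_deriv ?_
  have z := nE_odd (k := fun x => tanh x * (1 - tanh x ^ 2)) (fun x => by simp only [tanh_neg]; ring) hγ.le
  simp only [nE] at z ⊢
  have i1 := nE_int (F := fun x => 2 * tanh x * (1 - tanh x ^ 2)) (by fun_prop) b1 γ γ
  have i2 := nE_int (F := fun x => 2 * (1 - tanh x ^ 2) ^ 2 - 4 * tanh x ^ 2 * (1 - tanh x ^ 2))
    (by fun_prop) b2 γ γ
  have i3 := nE_int (F := fun x => (1 - tanh x ^ 2) ^ 2) (B := 1) (by fun_prop) (fun x => by
    rw [abs_of_nonneg (sq_nonneg _)]; nlinarith [hs x, sq_nonneg (tanh x)]) γ γ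
  rw [← integral_div, ← integral_add i1 (i2.div_const 2), ← sub_eq_zero]
  refine (integral_sub (i1.add (i2.div_const 2)) i3).symm.trans ?_
  refine (integral_congr_ae (g := fun g => (2 : ℝ) * (tanh (γ + √γ * g) * (1 - tanh (γ + √γ * g) ^ 2) * (1 - tanh (γ + √γ * g))))
    (ae_of_all _ fun g => ?_)).trans ((integral_const_mul _ _).trans (by rw [z, mul_zero]))
  simp only [Pi.add_apply]
  ring

theorem one_sub_psi (γ : ℝ) : 1 - psi γ = nE γ γ fun x => 1 - tanh x ^ 2 := by
  simp only [psi, nE]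
  rw [integral_sub (integrable_const _)
    (nE_int (F := fun x => tanh x ^ 2) (B := 1) (continuous_tanh'.pow 2)
      (fun x => by rw [abs_of_nonneg (sq_nonneg _)]; exact tanh_sq_le x) γ γ), integral_const]
  simp

theorem psi_mem (γ : ℝ) : 0 ≤ psi γ ∧ psi γ < 1 := by
  refine ⟨integral_nonneg fun g => sq_nonneg _, sub_pos.1 ?_⟩
  rw [one_sub_psi]
  have hpos : ∀ g : ℝ, 0 < 1 - tanh g ^ 2 := fun g =>
    sub_pos.2 ((sq_lt_one_iff_abs_lt_one _).2 (abs_tanh_lt_one g))
  exact integral_pos_of_pos hpos γ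
where
  integral_pos_of_pos (hpos : ∀ g : ℝ, 0 < 1 - tanh g ^ 2) (γ : ℝ) :
      0 < nE γ γ fun x => 1 - tanh x ^ 2 := by
    rw [nE, integral_pos_iff_support_of_nonneg (fun g => (hpos _).le)
      (nE_int (F := fun x => 1 - tanh x ^ 2) (B := 1) (continuous_const.sub (continuous_tanh'.pow 2))
        (fun x => by rw [abs_of_pos (hpos x)]; linarith [sq_nonneg (tanh x)]) γ γ)]
    rw [show Function.support (fun g => 1 - tanh (γ + √γ * g) ^ 2) = Set.univ from
      Set.eq_univ_of_forall fun g => (hpos _).ne']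
    simp

theorem hasDerivAt_hFun {γ : ℝ} (hγ : 0 < γ) : HasDerivAt hFun (-(1 - psi γ) / 2) γ := by
  have hs : ∀ x, 0 ≤ 1 - tanh x ^ 2 := fun x => sub_nonneg.2 (tanh_sq_le x)
  have hs1 : ∀ x, 1 - tanh x ^ 2 ≤ 1 := fun x => sub_le_self _ (sq_nonneg _)
  have b1 : ∀ x, |-(x * (1 - tanh x ^ 2))| ≤ 3 := fun x => by
    rw [abs_neg, abs_mul, abs_of_nonneg (hs x)]; linarith [abs_mul_sech_le x]
  have b2 : ∀ x, |-(1 - tanh x ^ 2) + 2 * (x * (1 - tanh x ^ 2)) * tanh x| ≤ 3 := fun x => by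
    refine (abs_add_le _ _).trans ?_
    rw [abs_neg, abs_of_nonneg (hs x), abs_mul, abs_mul, abs_two, abs_mul, abs_of_nonneg (hs x)]
    have h := mul_le_one₀ (abs_mul_sech_le x) (abs_nonneg (tanh x)) (abs_tanh_lt_one x).le
    linarith [hs1 x]
  have ct : Continuous tanh := continuous_tanh'
  have h := hasDerivAt_nE (F := siteH) (F' := fun x => -(x * (1 - tanh x ^ 2)))
    (F'' := fun x => -(1 - tanh x ^ 2) + 2 * (x * (1 - tanh x ^ 2)) * tanh x) (B := 3) hasDerivAt_siteH
    (fun u => (((hasDerivAt_id' u).mul (((hasDerivAt_tanh' u).pow 2).const_sub 1)).neg).congr_deriv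
      (by norm_num; ring))
    (by fun_prop) (fun u => (abs_siteH_le u).trans (by norm_num)) b1 b2 hγ
  refine h.congr_deriv ?_
  rw [one_sub_psi]
  have z := nE_odd (k := fun x => x * (1 - tanh x ^ 2)) (fun x => by simp only [tanh_neg]; ring) hγ.le
  simp only [nE] at z ⊢
  have i1 := nE_int (F := fun x => -(x * (1 - tanh x ^ 2))) (by fun_prop) b1 γ γ
  have i2 := nE_int (F := fun x => -(1 - tanh x ^ 2) + 2 * (x * (1 - tanh x ^ 2)) * tanh x)
    (by fun_prop) b2 γ γ
  have i3 := nE_int (F := fun x => 1 - tanh x ^ 2) (B := 1) (by fun_prop) (fun x => by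
    rw [abs_of_nonneg (hs x)]; exact hs1 x) γ γ
  rw [neg_div, ← integral_div, ← integral_div, ← integral_add i1 (i2.div_const 2), eq_neg_iff_add_eq_zero]
  refine (integral_add (i1.add (i2.div_const 2)) (i3.div_const 2)).symm.trans ?_
  refine (integral_congr_ae (g := fun g => (-1 : ℝ) * ((γ + √γ * g) * (1 - tanh (γ + √γ * g) ^ 2) * (1 - tanh (γ + √γ * g))))
    (ae_of_all _ fun g => ?_)).trans ((integral_const_mul _ _).trans (by rw [z, mul_zero]))
  simp only [Pi.add_apply]
  ring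

theorem continuous_psi : Continuous psi :=
  continuous_nE (continuous_tanh'.pow 2) (B := 1) fun x => by
    rw [abs_of_nonneg (sq_nonneg _)]; exact tanh_sq_le x

theorem continuous_hFun : Continuous hFun := continuous_nE continuous_siteH abs_siteH_le

theorem psi_zero : psi 0 = 0 := by simp [psi, nE]

theorem hFun_zero : hFun 0 = log 2 := by simp [hFun, nE, siteH]

theorem psi_deriv_mem {γ : ℝ} :
    0 ≤ (nE γ γ fun x => (1 - tanh x ^ 2) ^ 2) ∧
      (nE γ γ fun x => (1 - tanh x ^ 2) ^ 2) ≤ 1 - psi γ := by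
  refine ⟨integral_nonneg fun g => sq_nonneg _, ?_⟩
  rw [one_sub_psi]
  have hs : ∀ x, 0 ≤ 1 - tanh x ^ 2 ∧ 1 - tanh x ^ 2 ≤ 1 := fun x =>
    ⟨sub_nonneg.2 (tanh_sq_le x), sub_le_self _ (sq_nonneg _)⟩
  have ct : Continuous tanh := continuous_tanh'
  refine integral_mono (nE_int (F := fun x => (1 - tanh x ^ 2) ^ 2) (B := 1) (by fun_prop) (fun x => ?_) γ γ)
    (nE_int (F := fun x => 1 - tanh x ^ 2) (B := 1) (by fun_prop) (fun x => ?_) γ γ) fun g => ?_
  · rw [abs_of_nonneg (sq_nonneg _)]; nlinarith [hs x]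
  · rw [abs_of_nonneg (hs x).1]; exact (hs x).2
  · nlinarith [hs (γ + √γ * g)]

theorem psi_mono : MonotoneOn psi (Set.Ici 0) :=
  monotoneOn_of_hasDerivWithinAt_nonneg (convex_Ici 0) continuous_psi.continuousOn
    (fun γ hγ => (hasDerivAt_psi (by simpa using hγ)).hasDerivWithinAt) fun _ _ => psi_deriv_mem.1

theorem psi_lip {a b : ℝ} (ha : 0 ≤ a) (hb : 0 ≤ b) : |psi a - psi b| ≤ |a - b| := by
  have h : MonotoneOn (fun γ => γ - psi γ) (Set.Ici 0) :=
    monotoneOn_of_hasDerivWithinAt_nonneg (convex_Ici 0) (continuous_id.sub continuous_psi).continuousOn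
      (fun γ hγ => ((hasDerivAt_id' γ).sub (hasDerivAt_psi (by simpa using hγ))).hasDerivWithinAt)
      fun γ _ => by linarith [(psi_deriv_mem (γ := γ)).2, (psi_mem γ).1]
  rcases le_total a b with hab | hab
  · rw [abs_sub_comm, abs_of_nonneg (sub_nonneg.2 (psi_mono ha hb hab)), abs_sub_comm,
      abs_of_nonneg (sub_nonneg.2 hab)]
    linarith [h ha hb hab]
  · rw [abs_of_nonneg (sub_nonneg.2 (psi_mono hb ha hab)), abs_of_nonneg (sub_nonneg.2 hab)]
    linarith [h hb ha hab]

theorem hFun_anti : AntitoneOn hFun (Set.Ici 0) :=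
  antitoneOn_of_hasDerivWithinAt_nonpos (convex_Ici 0) continuous_hFun.continuousOn
    (fun γ hγ => (hasDerivAt_hFun (by simpa using hγ)).hasDerivWithinAt)
    fun γ _ => by linarith [(psi_mem γ).2]

theorem hFun_lip {a b : ℝ} (ha : 0 ≤ a) (hb : 0 ≤ b) : |hFun a - hFun b| ≤ |a - b| := by
  have h : MonotoneOn (fun γ => γ + hFun γ) (Set.Ici 0) :=
    monotoneOn_of_hasDerivWithinAt_nonneg (convex_Ici 0) (continuous_id.add continuous_hFun).continuousOn
      (fun γ hγ => ((hasDerivAt_id' γ).add (hasDerivAt_hFun (by simpa using hγ))).hasDerivWithinAt)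
      fun γ _ => by linarith [(psi_mem γ).1]
  rcases le_total a b with hab | hab
  · rw [abs_of_nonneg (sub_nonneg.2 (hFun_anti ha hb hab)), abs_sub_comm,
      abs_of_nonneg (sub_nonneg.2 hab)]
    linarith [h ha hb hab]
  · rw [abs_sub_comm, abs_of_nonneg (sub_nonneg.2 (hFun_anti hb ha hab)),
      abs_of_nonneg (sub_nonneg.2 hab)]
    linarith [h hb ha hab]

end Vale.Agent.P150.Fast.Entropy
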