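import Vale.Agent.P150.Fast.Entropy.Scalar

/-!
Even bounded continuous functions as sums of cosines up to a quadratic tail, and the normal mean of
a cosine (P150).
-/

open MeasureTheory ProbabilityTheory Real Finset

namespace Vale.Agent.P150.Fast.Entropy

/-- A finite sum of cosines. -/
noncomputable def cosSum {m : ℕ} (a ξ : Fin m → ℝ) (x : ℝ) : ℝ := ∑ j, a j * cos (ξ j * x)

theorem cosSum_pow (w : ℝ) : ∀ k : ℕ, ∃ (m : ℕ) (a ξ : Fin m → ℝ),
    ∀ x, cos (w * x) ^ k = cosSum a ξ x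
  | 0 => ⟨1, fun _ => 1, fun _ => 0, fun x => by simp [cosSum]⟩
  | k + 1 => by
    obtain ⟨m, a, ξ, h⟩ := cosSum_pow w k
    refine ⟨m + m, Fin.append (fun j => a j / 2) (fun j => a j / 2),
      Fin.append (fun j => ξ j + w) (fun j => ξ j - w), fun x => ?_⟩
    rw [pow_succ, h, cosSum, cosSum, Fin.sum_univ_add, sum_mul, ← sum_add_distrib]
    refine sum_congr rfl fun j _ => ?_
    simp only [Fin.append_left, Fin.append_right, add_mul, sub_mul, cos_add, cos_sub]
    ring

theorem cosSum_poly (w : ℝ) (p : Polynomial ℝ) : ∃ (m : ℕ) (a ξ : Fin m → ℝ),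
    ∀ x, p.eval (cos (w * x)) = cosSum a ξ x := by
  induction p using Polynomial.induction_on' with
  | monomial k c =>
    obtain ⟨m, a, ξ, h⟩ := cosSum_pow w k
    exact ⟨m, fun j => c * a j, ξ, fun x => by
      rw [Polynomial.eval_monomial, h, cosSum, cosSum, mul_sum]; simp only [mul_assoc]⟩
  | add p q hp hq =>
    obtain ⟨m, a, ξ, h⟩ := hp
    obtain ⟨m', a', ξ', h'⟩ := hq
    refine ⟨m + m', Fin.append a a', Fin.append ξ ξ', fun x => ?_⟩
    rw [Polynomial.eval_add, h, h', cosSum, cosSum, cosSum, Fin.sum_univ_add]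
    simp only [Fin.append_left, Fin.append_right]

/-- An even continuous function bounded by one is a sum of cosines up to `ε (1 + x²)`. -/
theorem exists_cos_approx {G : ℝ → ℝ} (hG : Continuous G) (he : ∀ x, G (-x) = G x)
    (hb : ∀ x, |G x| ≤ 1) {ε : ℝ} (hε : 0 < ε) : ∃ (m : ℕ) (a ξ : Fin m → ℝ),
    ∀ x, |G x - cosSum a ξ x| ≤ ε * (1 + x ^ 2) := by
  set L := 3 / min ε 1 + 1 with hL
  have hmin : 0 < min ε 1 := lt_min hε one_pos
  have hL0 : 0 < L := by positivity
  have hpi := pi_pos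
  obtain ⟨p, hp⟩ := exists_polynomial_near_of_continuousOn (-1) 1 (fun u => G (L / π * arccos u))
    (hG.comp (continuous_const.mul continuous_arccos)).continuousOn (min ε 1) hmin
  obtain ⟨m, a, ξ, h⟩ := cosSum_poly (π / L) p
  refine ⟨m, a, ξ, fun x => ?_⟩
  rw [← h x]
  have hu : cos (π / L * x) ∈ Set.Icc (-1 : ℝ) 1 := ⟨neg_one_le_cos _, cos_le_one _⟩
  have hq := hp _ hu
  have hx2 : 0 ≤ ε * x ^ 2 := by positivity
  rcases le_or_gt |x| L with hxL | hxL
  · have e : L / π * arccos (cos (π / L * x)) = |x| := by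
      rw [← cos_abs, arccos_cos (abs_nonneg _), abs_mul, abs_of_pos (div_pos hpi hL0)]
      · field_simp
      · rw [abs_mul, abs_of_pos (div_pos hpi hL0), div_mul_eq_mul_div, div_le_iff₀ hL0]
        exact mul_le_mul_of_nonneg_left hxL hpi.le
    have e2 : G |x| = G x := by rcases abs_choice x with h' | h' <;> rw [h']; exact he x
    rw [e, e2, abs_sub_comm] at hq
    linarith [min_le_left ε 1]
  · have hP : |p.eval (cos (π / L * x))| ≤ 2 := by
      have h2 := abs_sub_abs_le_abs_sub (p.eval (cos (π / L * x)))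
        (G (L / π * arccos (cos (π / L * x))))
      linarith [hb (L / π * arccos (cos (π / L * x))), min_le_right ε 1]
    have h3 : (3 : ℝ) ≤ ε * x ^ 2 := by
      have h1 : 3 ≤ min ε 1 * L := by
        rw [hL, mul_add, mul_div_cancel₀ _ hmin.ne']; linarith
      have h2 : (1 : ℝ) ≤ L := by rw [hL]; linarith [div_pos (by norm_num : (0:ℝ) < 3) hmin]
      have h4 : L ≤ x ^ 2 := by rw [← sq_abs]; nlinarith
      calc (3 : ℝ) ≤ min ε 1 * L := h1
        _ ≤ ε * x ^ 2 := mul_le_mul (min_le_left _ _) h4 hL0.le hε.le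
    refine (abs_sub _ _).trans ?_
    linarith [hb x]

theorem nE_cos (a ξ : ℝ) {v : ℝ} (hv : 0 ≤ v) :
    nE a v (fun x => cos (ξ * x)) = exp (-(ξ ^ 2 * v) / 2) * cos (ξ * a) := by
  set u := ξ * √v with hu
  set I1 := fun g : ℝ => Complex.exp (((u * g : ℝ) : ℂ) * Complex.I) with hI1
  have h := charFun_gaussianReal (μ := 0) (v := 1) u
  rw [charFun_apply_real] at h
  simp only [Complex.ofReal_zero, mul_zero, zero_mul, NNReal.coe_one, Complex.ofReal_one, one_mul,
    zero_sub] at h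
  have hI : Integrable (fun g : ℝ => Complex.exp ((u : ℂ) * g * Complex.I)) (gaussianReal 0 1) :=
    (integrable_const (1 : ℝ)).mono' (by fun_prop) (ae_of_all _ fun g => by
      rw [← Complex.ofReal_mul, Complex.norm_exp_ofReal_mul_I])
  have hre : ∫ g, cos (u * g) ∂gaussianReal 0 1 = exp (-(u ^ 2) / 2) := by
    have h2 := congrArg Complex.re h
    rw [← Complex.reCLM_apply, ← Complex.reCLM.integral_comp_comm hI] at h2
    have e1 : ∀ g : ℝ, Complex.reCLM (Complex.exp ((u : ℂ) * g * Complex.I)) = cos (u * g) := fun g => by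
      rw [← Complex.ofReal_mul, Complex.reCLM_apply, Complex.exp_ofReal_mul_I_re]
    rw [integral_congr_ae (ae_of_all _ e1)] at h2
    rw [h2, show (-((u : ℂ) ^ 2 / 2)) = ((-(u ^ 2) / 2 : ℝ) : ℂ) by push_cast; ring, Complex.exp_ofReal_re]
  have him : ∫ g, sin (u * g) ∂gaussianReal 0 1 = 0 := by
    have h2 := congrArg Complex.im h
    rw [← Complex.imCLM_apply, ← Complex.imCLM.integral_comp_comm hI] at h2
    have e1 : ∀ g : ℝ, Complex.imCLM (Complex.exp ((u : ℂ) * g * Complex.I)) = sin (u * g) := fun g => by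
      rw [← Complex.ofReal_mul, Complex.imCLM_apply, Complex.exp_ofReal_mul_I_im]
    rw [integral_congr_ae (ae_of_all _ e1)] at h2
    rw [h2, show (-((u : ℂ) ^ 2 / 2)) = ((-(u ^ 2) / 2 : ℝ) : ℂ) by push_cast; ring, Complex.exp_ofReal_im]
  have e : ∀ g : ℝ, cos (ξ * (a + √v * g)) = cos (ξ * a) * cos (u * g) - sin (ξ * a) * sin (u * g) :=
    fun g => by rw [hu, mul_add, cos_add, mul_assoc]
  have ic : Integrable (fun g => cos (u * g)) (gaussianReal 0 1) :=
    (integrable_const (1 : ℝ)).mono' (by fun_prop) (ae_of_all _ fun g => abs_cos_le_one _)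
  have is : Integrable (fun g => sin (u * g)) (gaussianReal 0 1) :=
    (integrable_const (1 : ℝ)).mono' (by fun_prop) (ae_of_all _ fun g => abs_sin_le_one _)
  rw [nE, integral_congr_ae (ae_of_all _ e), integral_sub (ic.const_mul _) (is.const_mul _),
    integral_const_mul, integral_const_mul, hre, him, hu, mul_pow, sq_sqrt hv]
  ring

theorem nE_sq (a : ℝ) {v : ℝ} (hv : 0 ≤ v) :
    Integrable (fun g => (a + √v * g) ^ 2) (gaussianReal 0 1) ∧
      nE a v (fun x => x ^ 2) = a ^ 2 + v := by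
  have i1 : Integrable (fun g : ℝ => g) (gaussianReal 0 1) := by simpa using integrable_pow_gauss 1
  have i2 : Integrable (fun g : ℝ => g ^ 2) (gaussianReal 0 1) := integrable_pow_gauss 2
  have e : ∀ g : ℝ, (a + √v * g) ^ 2 = a ^ 2 + (2 * a * √v) * g + v * g ^ 2 := fun g => by
    rw [add_sq, mul_pow, sq_sqrt hv]; ring
  have hI : Integrable (fun g => a ^ 2 + (2 * a * √v) * g + v * g ^ 2) (gaussianReal 0 1) :=
    ((integrable_const _).add (i1.const_mul _)).add (i2.const_mul _)
  refine ⟨hI.congr (ae_of_all _ fun g => (e g).symm), ?_⟩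
  have m2 : ∫ x, x ^ 2 ∂gaussianReal 0 1 = (1 : ℝ) := by rw [moment_step 0]; simp
  have m1 : ∫ x, x ∂gaussianReal 0 1 = (0 : ℝ) := by simp
  rw [nE, integral_congr_ae (ae_of_all _ e),
    integral_add (f := fun g => a ^ 2 + 2 * a * √v * g) (g := fun g => v * g ^ 2)
      ((integrable_const _).add (i1.const_mul _)) (i2.const_mul _),
    integral_add (f := fun _ => a ^ 2) (g := fun g => 2 * a * √v * g)
      (integrable_const _) (i1.const_mul _), integral_const_mul, integral_const_mul, m1, m2,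
    integral_const]
  simp

theorem nE_cosSum {m : ℕ} (a ξ : Fin m → ℝ) (x : ℝ) {v : ℝ} (hv : 0 ≤ v) :
    nE x v (cosSum a ξ) = ∑ j, a j * (exp (-(ξ j ^ 2 * v) / 2) * cos (ξ j * x)) := by
  have hi : ∀ j, Integrable (fun g => cos (ξ j * (x + √v * g))) (gaussianReal 0 1) := fun j =>
    nE_int (F := fun y => cos (ξ j * y)) (B := 1) (by fun_prop) (fun y => abs_cos_le_one _) x v
  simp only [nE, cosSum]
  rw [integral_finsetSum _ fun j _ => (hi j).const_mul (a j)]
  exact sum_congr rfl fun j _ => by rw [integral_const_mul, ← nE_cos x (ξ j) hv]; rfl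

/-- The approximation passes to normal means. -/
theorem nE_approx {G : ℝ → ℝ} (hG : Continuous G) (hb : ∀ x, |G x| ≤ 1) {m : ℕ} {a ξ : Fin m → ℝ}
    {ε : ℝ} (h : ∀ x, |G x - cosSum a ξ x| ≤ ε * (1 + x ^ 2)) (x : ℝ) {v : ℝ} (hv : 0 ≤ v) :
    |nE x v G - nE x v (cosSum a ξ)| ≤ ε * (1 + x ^ 2 + v) := by
  obtain ⟨i2, e2⟩ := nE_sq x hv
  have hcs : Continuous (cosSum a ξ) := by unfold cosSum; fun_prop
  have hcb : ∀ y, |cosSum a ξ y| ≤ ∑ j, |a j| := fun y =>
    (abs_sum_le_sum_abs _ _).trans (sum_le_sum fun j _ => by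
      rw [abs_mul]; exact mul_le_of_le_one_right (abs_nonneg _) (abs_cos_le_one _))
  simp only [nE]
  rw [← integral_sub (nE_int hG hb x v) (nE_int hcs hcb x v)]
  refine (norm_integral_le_of_norm_le (f := fun g => G (x + √v * g) - cosSum a ξ (x + √v * g))
    (g := fun g => ε * (1 + (x + √v * g) ^ 2)) (((integrable_const (1 : ℝ)).add i2).const_mul ε)
    (ae_of_all _ fun g => h _)).trans (le_of_eq ?_)
  rw [integral_const_mul, integral_add (integrable_const _) i2, integral_const]
  simp only [nE] at e2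
  rw [e2, probReal_univ, one_smul, add_assoc]

end Vale.Agent.P150.Fast.Entropy
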