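import Vale.Agent.P150.Fast.Entropy.Pic
import Vale.Agent.P150.Fast.Entropy.Approx
import Vale.Agent.P150.Fast.ChainPower

/-!
The kernels behind the far picture at zero field, the picture from the cavity statement, and the
concentration of an average along the alternation of a law with small single-site entropy (P150).
-/

open MeasureTheory ProbabilityTheory Real Finset
open scoped Matrix

namespace Vale.Agent.P150.Fast.Entropy

variable {n : ℕ} {ν : Conf n → ℝ} {S : Finset (Fin n)}

theorem av_av (P Q : Conf n → Conf n → ℝ) (f : Conf n → ℝ) (g : Conf n) :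
    av (fun g z => ∑ w, P g w * Q w z) f g = av P (fun w => av Q f w) g := by
  simp only [av, sum_mul, mul_sum]
  rw [sum_comm]
  exact sum_congr rfl fun w _ => sum_congr rfl fun z _ => by ring

theorem far_comp {P Q : Conf n → Conf n → ℝ} (hP : Far ν S P) (hQ : Far ν S Q) :
    Far ν S (fun g z => ∑ w, P g w * Q w z) where
  nn g z := sum_nonneg fun w _ => mul_nonneg (hP.nn g w) (hQ.nn w z)
  row g := by
    rw [sum_comm]
    simp only [← mul_sum, hQ.row, mul_one, hP.row]
  stat f := by
    simp only [av_av]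
    rw [hP.stat, hQ.stat]
  supp g z hz := sum_eq_zero fun w _ => by
    by_cases hw : w ∈ fib S g
    · rw [hQ.supp w z (fib_eq hw ▸ hz), mul_zero]
    · rw [hP.supp g w hw, zero_mul]

theorem far_id : Far ν S (fun g z => if g = z then 1 else 0) where
  nn g z := by split <;> norm_num
  row g := by simp
  stat f := by simp [av]
  supp g z hz := if_neg fun (h : g = z) => hz (h ▸ self_mem_fib S g)

/-- Powers of a far kernel are far kernels. -/
theorem exists_pow {K : Conf n → Conf n → ℝ} (hK : Far ν S K) :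
    ∀ T : ℕ, ∃ P, Far ν S P ∧ ∀ f g, powOp K T f g = av P f g
  | 0 => ⟨_, far_id, fun f g => by simp [powOp, av]⟩
  | T + 1 => by
    obtain ⟨P, hP, e⟩ := exists_pow hK T
    refine ⟨_, far_comp hK hP, fun f g => ?_⟩
    rw [powOp_succ, av_av]
    exact sum_congr rfl fun z _ => by rw [e]

theorem far_pR (hKer : KerStmt) (hν : ∀ x, 0 < ν x) {s : Step n} (hA : s.A.PosDef) :
    Far ν s.S (kerOf (pR ν) s) := by
  obtain ⟨h, -⟩ := hKer n ν s hν hA
  refine ⟨h.nn, h.row, fun f => ?_, fun g z hz => ?_⟩
  · have e : ∀ g z, ν g * (kerOf (pR ν) s g z * f z) = kerOf (pR ν) s z g * (ν z * f z) := fun g z => by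
      rw [← mul_assoc, h.symm]; ring
    simp only [av, mul_sum, e]
    rw [sum_comm]
    simp only [← sum_mul, h.row, one_mul]
  · simp [kerOf, pR, postS, hz]

theorem far_qR (hKer : KerStmt) {s : Step n} (hA : s.A.PosDef) :
    Far (fun _ : Conf n => (0 : ℝ)) ∅ (kerOf qR s) where
  nn x z := integral_nonneg fun y => mul_nonneg (chanV_pos hA _ _).le (prodS_nonneg _ _ _ _)
  row := (hKer n (fun _ => 1) s (fun _ => one_pos) hA).2.1
  stat f := by simp
  supp g z hz := absurd (by simp [fib_empty]) hz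

theorem chainOp_const {R : Step n → Kern n} {s : Step n}
    (h : ∀ f x, stepOp R s f x = ∑ z, kerOf R s x z * f z) :
    ∀ (r : ℕ) (f : Conf n → ℝ), chainOp R (fun _ : Fin r => s) f = powOp (kerOf R s) r f
  | 0, _ => rfl
  | r + 1, f => by
    funext x
    rw [powOp_succ, ← chainOp_const h r f]
    exact h _ x

theorem curvC_one_le {L : ℝ} (hL : 0 ≤ L) : 1 ≤ curvC L := by
  unfold curvC
  have h1 : (1 : ℝ) ≤ exp (4 * L) := one_le_exp (by linarith)
  nlinarith [sq_nonneg L, mul_nonneg (exp_pos (4 * L)).le (sq_nonneg L)]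

/-- An average with a small gradient is close to any value near its mean from the far past. -/
theorem emp_conc (hKer : KerStmt) (hPV : PathVarStmt) (hPE : PathEndStmt) (hCT : CurvTailStmt)
    (hn : 0 < n) (hν : ∀ x, 0 < ν x) (h1 : ∑ x, ν x = 1) {s : Step n} {L : ℝ} (hL : 0 ≤ L)
    (hs : s.Good L) {η a l : ℝ} (hl : 0 < l) (hD : freeD ν s ≤ η * n) {Y : Conf n → ℝ}
    (hY : ∀ x, grad2 Y x ≤ a / n) (T : ℕ) (c : ℝ) :
    ∑ x, ν x * |Y x - c| ≤ 2 * (T * η / l + log 2 / (l * n) + mgfC L * curvC L ^ T * a * l)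
      + ∑ g, ν g * |powOp (kerOf (pR ν) s) T Y g - c| := by
  have hn' : (0 : ℝ) < n := by exact_mod_cast hn
  have hA := hs.1
  obtain ⟨-, -, hsp, hsq, -⟩ := hKer n ν s hν hA
  obtain ⟨P, hP, eP⟩ := exists_pow (far_pR hKer hν hA) T
  obtain ⟨Q, hQ, eQ⟩ := exists_pow (far_qR hKer hA) T
  set σ : Fin T → Step n := fun _ => s with hσ
  have cP : ∀ f x, chainOp (pR ν) σ f x = av P f x := fun f x => by rw [hσ, chainOp_const hsp, eP]
  have cQ : ∀ f x, chainOp qR σ f x = av Q f x := fun f x => by rw [hσ, chainOp_const hsq, eQ]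
  set m := fun x => av Q Y x with hm
  set C := mgfC L * curvC L ^ T * (a / n) * (l * n) ^ 2 with hC
  have hmgf : ∀ x (t : ℝ), t ^ 2 = (l * n) ^ 2 →
      av Q (fun z => exp (t * Y z)) x ≤ exp (t * m x + C) := by
    intro x t ht
    have h := (hCT n T σ L hL (fun _ => hs) Y (a / n) hY).2.1 x t
    have e := hPE n T σ (fun z => exp (t * Y z)) x qR
    rw [e, cQ, cQ] at h
    rw [hC, ← ht]
    exact h
  have hq : ∀ x, av Q (fun z => exp (l * n * |Y z - m x|)) x ≤ 2 * exp C := by
    intro x
    have hle : ∀ z, exp (l * n * |Y z - m x|)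
        ≤ exp (-(l * n * m x)) * exp (l * n * Y z) + exp (l * n * m x) * exp (-(l * n) * Y z) := by
      intro z
      rw [← exp_add, ← exp_add]
      rcases le_total (m x) (Y z) with h | h
      · rw [abs_of_nonneg (sub_nonneg.2 h)]
        exact le_add_of_le_of_nonneg (exp_le_exp.2 (le_of_eq (by ring))) (exp_pos _).le
      · rw [abs_of_nonpos (sub_nonpos.2 h)]
        exact le_add_of_nonneg_of_le (exp_pos _).le (exp_le_exp.2 (le_of_eq (by ring)))
    refine (av_mono hQ hle x).trans ?_
    have e : av Q (fun z => exp (-(l * n * m x)) * exp (l * n * Y z)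
        + exp (l * n * m x) * exp (-(l * n) * Y z)) x
        = exp (-(l * n * m x)) * av Q (fun z => exp (l * n * Y z)) x
          + exp (l * n * m x) * av Q (fun z => exp (-(l * n) * Y z)) x := by
      simp only [av, mul_add, sum_add_distrib, mul_sum]
      exact congrArg₂ (· + ·) (sum_congr rfl fun z _ => by ring) (sum_congr rfl fun z _ => by ring)
    rw [e]
    refine (add_le_add (mul_le_mul_of_nonneg_left (hmgf x _ rfl) (exp_pos _).le)
      (mul_le_mul_of_nonneg_left (hmgf x _ (neg_sq _)) (exp_pos _).le)).trans (le_of_eq ?_)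
    rw [← exp_add, ← exp_add, neg_add_cancel_left, show l * n * m x + (-(l * n) * m x + C) = C by ring]
    ring
  set F : Conf n → (Fin T → (Fin n → ℝ) × Conf n) → ℝ :=
    fun x ω => l * n * |Y (endAt x ω) - m x| with hF
  have hFm : ∀ x, Measurable (F x) := fun x => by
    have he : Measurable fun ω : Fin T → (Fin n → ℝ) × Conf n => endAt x ω := by
      cases T with
      | zero => exact measurable_const
      | succ r =>
        have e : (fun ω : Fin (r + 1) → (Fin n → ℝ) × Conf n => endAt x ω)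
            = fun ω => (ω (Fin.last r)).2 := by
          funext ω
          rw [endAt, ← Fin.succ_last, Fin.cons_succ]
        rw [e]
        exact measurable_snd.comp (measurable_pi_apply _)
    exact (measurable_of_finite fun z : Conf n => l * n * |Y z - m x|).comp he
  have hFb : ∃ M, ∀ x ω, |F x ω| ≤ M :=
    ⟨∑ x, ∑ z, |l * n * (Y z - m x)|, fun x ω => by
      rw [hF, abs_mul, abs_abs, ← abs_mul]
      exact (single_le_sum (f := fun z => |l * n * (Y z - m x)|) (fun z _ => abs_nonneg _)
        (mem_univ (endAt x ω))).trans (single_le_sum (f := fun x => ∑ z, |l * n * (Y z - m x)|)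
          (fun x _ => sum_nonneg fun z _ => abs_nonneg _) (mem_univ x))⟩
  have hv := hPV n T ν σ hν h1 (fun _ => hA) F hFm hFb
  have eF : lawE (pR ν) ν σ F = l * n * ∑ x, ν x * av P (fun z => |Y z - m x|) x := by
    rw [lawE, mul_sum]
    refine sum_congr rfl fun x _ => ?_
    rw [hPE n T σ (fun z => l * n * |Y z - m x|) x, cP, av, av, mul_sum, mul_sum, mul_sum]
    exact sum_congr rfl fun z _ => by ring
  have eE : lawE qR ν σ (fun x ω => exp (F x ω)) ≤ 2 * exp C := by
    rw [lawE]
    refine (sum_le_sum fun x _ => mul_le_mul_of_nonneg_left ?_ (hν x).le).trans_eq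
      (show ∑ x, ν x * (2 * exp C) = 2 * exp C by rw [← sum_mul, h1, one_mul])
    rw [hPE n T σ (fun z => exp (l * n * |Y z - m x|)) x, cQ]
    exact hq x
  have eP1 : 1 ≤ lawE qR ν σ (fun x ω => exp (F x ω)) := by
    rw [lawE, ← h1]
    refine sum_le_sum fun x _ => le_mul_of_one_le_right (hν x).le ?_
    rw [hPE n T σ (fun z => exp (l * n * |Y z - m x|)) x, cQ, ← av_const hQ 1 x]
    exact av_mono hQ (fun z => one_le_exp (by positivity)) x
  have hlog := log_le_log (zero_lt_one.trans_le eP1) eE
  rw [log_mul two_ne_zero (exp_pos _).ne', log_exp] at hlog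
  rw [eF] at hv
  have hsum : ∑ t, freeD ν (σ t) ≤ T * (η * n) := by
    simp only [hσ, sum_const, card_univ, Fintype.card_fin, nsmul_eq_mul]
    exact mul_le_mul_of_nonneg_left hD (Nat.cast_nonneg T)
  set D := ∑ x, ν x * av P (fun z => |Y z - m x|) x with hDdef
  have hDle : D ≤ T * η / l + log 2 / (l * n) + mgfC L * curvC L ^ T * a * l := by
    have hpos : 0 < l * n := mul_pos hl hn'
    refine le_of_mul_le_mul_left ?_ hpos
    have e : l * n * (T * η / l + log 2 / (l * n) + mgfC L * curvC L ^ T * a * l)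
        = T * (η * n) + log 2 + C := by
      rw [hC]; field_simp
    linarith
  calc ∑ x, ν x * |Y x - c| = ∑ x, ν x * av P (fun z => |Y z - c|) x := (hP.stat _).symm
    _ ≤ ∑ x, ν x * (2 * av P (fun z => |Y z - m x|) x + |av P Y x - c|) := by
        refine sum_le_sum fun x _ => mul_le_mul_of_nonneg_left ?_ (hν x).le
        have h2 : av P (fun z => |Y z - c|) x ≤ av P (fun z => |Y z - m x|) x + |m x - c| := by
          conv_rhs => rw [← av_const hP |m x - c| x]
          rw [av, av, av, ← sum_add_distrib]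
          exact sum_le_sum fun z _ => by
            rw [← mul_add]; exact mul_le_mul_of_nonneg_left (abs_sub_le _ _ _) (hP.nn x z)
        have h3 := abs_av_sub_le hP Y (m x) x
        have h4 := abs_sub_le (m x) (av P Y x) c
        rw [abs_sub_comm] at h3
        linarith
    _ = 2 * D + ∑ g, ν g * |powOp (kerOf (pR ν) s) T Y g - c| := by
        simp only [mul_add, sum_add_distrib, hDdef, mul_sum, eP]
        exact congrArg₂ (· + ·) (sum_congr rfl fun x _ => by ring) rfl
    _ ≤ _ := by linarith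

theorem nE_wave (a ξ φ : ℝ) {v : ℝ} (hv : 0 ≤ v) :
    nE a v (fun x => sin (ξ * x + φ)) = exp (-(ξ ^ 2 * v) / 2) * sin (ξ * a + φ) := by
  set u := ξ * √v with hu
  have hc : ∫ g, cos (u * g) ∂gaussianReal 0 1 = exp (-(ξ ^ 2 * v) / 2) := by
    have h := nE_cos 0 u zero_le_one
    simp only [nE, sqrt_one, one_mul, zero_add, mul_zero, cos_zero, mul_one] at h
    rw [h, hu, mul_pow, sq_sqrt hv]
  have hs : ∫ g, sin (u * g) ∂gaussianReal 0 1 = 0 := by
    have hmap : MeasurePreserving (fun g : ℝ => -g) (gaussianReal 0 1) (gaussianReal 0 1) :=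
      ⟨measurable_neg, by simp [gaussianReal_map_neg]⟩
    have h := hmap.integral_comp' (f := MeasurableEquiv.neg ℝ) (fun g => sin (u * g))
    simp [integral_neg] at h
    linarith
  have e : ∀ g : ℝ, sin (ξ * (a + √v * g) + φ)
      = sin (ξ * a + φ) * cos (u * g) + cos (ξ * a + φ) * sin (u * g) := fun g => by
    rw [hu, ← sin_add]; ring_nf
  have ic := nE_int (F := fun y => cos (u * y)) (B := 1) (by fun_prop) (fun y => abs_cos_le_one _) 0 1
  have is := nE_int (F := fun y => sin (u * y)) (B := 1) (by fun_prop) (fun y => abs_sin_le_one _) 0 1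
  simp only [sqrt_one, one_mul, zero_add] at ic is
  rw [nE, integral_congr_ae (ae_of_all _ e), integral_add (ic.const_mul _) (is.const_mul _),
    integral_const_mul, integral_const_mul, hc, hs]
  ring

/-- The normalised wave. -/
noncomputable def waveTest (ξ : ℝ) (c : Bool) (x : ℝ) : ℝ := sin (ξ * x + phase c) / (1 + |ξ|)

theorem waveTest_isTest (ξ : ℝ) (c : Bool) : IsTest1 (waveTest ξ c) := by
  have hp : (0 : ℝ) < 1 + |ξ| := by positivity
  refine ⟨fun u => ?_, fun u v => ?_⟩
  · rw [waveTest, abs_div, abs_of_pos hp, div_le_one hp]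
    linarith [abs_sin_le_one (ξ * u + phase c), abs_nonneg ξ]
  · rw [waveTest, waveTest, ← sub_div, abs_div, abs_of_pos hp, div_le_iff₀ hp]
    have h := lipschitzWith_sin.dist_le_mul (ξ * u + phase c) (ξ * v + phase c)
    simp only [Real.dist_eq, NNReal.coe_one, one_mul, add_sub_add_right_eq_sub, ← mul_sub, abs_mul] at h
    refine h.trans ?_
    nlinarith [abs_nonneg ξ, abs_nonneg (u - v)]

/-- The tests of the waves `Ξ`. -/
noncomputable def waveTests (Ξ : Finset ℝ) : Finset (ℝ → ℝ) := by
  classical exact (Ξ ×ˢ (univ : Finset Bool)).image fun p => waveTest p.1 p.2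

theorem waveTests_isTest (Ξ : Finset ℝ) : ∀ F ∈ waveTests Ξ, IsTest1 F := by
  classical
  intro F hF
  simp only [waveTests, mem_image] at hF
  obtain ⟨p, -, rfl⟩ := hF
  exact waveTest_isTest p.1 p.2

theorem fieldE_zero (h1 : ∑ x, ν x = 1) (G : (Fin n → ℝ) → ℝ) : fieldE 0 ν G = G 0 := by
  simp [fieldE, sideField, ← sum_mul, h1]

theorem priorAt_zero (A : Matrix (Fin n) (Fin n) ℝ) (h1 : ∑ x, ν x = 1) : priorAt A 0 ν 0 = ν := by
  funext x
  simp [priorAt, lin, h1]

/-- The picture from the cavity statement at zero field. -/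
theorem pic_of_cav (hKer : KerStmt) (hν : ∀ x, 0 < ν x) (h1 : ∑ x, ν x = 1) {β : ℝ}
    (hβ : β ^ 2 ≤ 1) {d : Dis n} (hA : (aop n β d).PosDef) {S : Finset (Fin n)} {T : ℕ}
    {Ξ : Finset ℝ} {θ B : ℝ} (hB : ∀ ξ ∈ Ξ, 1 + |ξ| ≤ B) (hB1 : 1 ≤ B)
    (h : fieldE 0 ν (fun h => cavErr β d 0 ν h S T (waveTests Ξ)) ≤ θ) :
    ∃ M, (∀ f g, powOp (kerOf (pR ν) ⟨aop n β d, 0, S⟩) T f g = av M f g) ∧
      Pic β (kmat n β d) ν S M (B * θ) Ξ := by
  classical
  obtain ⟨M, hM, eM⟩ := exists_pow (far_pR hKer hν (s := ⟨aop n β d, 0, S⟩) hA) T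
  rw [fieldE_zero h1] at h
  simp only [cavErr, farMag, farMu, farR, farQ, farOp, sub_zero, one_smul, priorAt_zero _ h1, one_mul,
    Pi.zero_apply, add_zero, eM] at h
  have h0 : ∀ g, ∀ i : Fin n, 0 ≤ ∑ F ∈ waveTests Ξ, ∑ b : Bool,
      |av M (fun x => if x i = b then F (zField β d x i) else 0) g
        - (1 + spin b * mag M g i) / 2
          * nE (cav β (kmat n β d) M g i + spin b * rv β M g) (rv β M g) F| :=
    fun g i => sum_nonneg fun F _ => sum_nonneg fun b _ => abs_nonneg _
  have hθ : ∑ g, ν g * ((n : ℝ)⁻¹ * ∑ i ∈ Sᶜ,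
      (|mag M g i - tanh (cav β (kmat n β d) M g i)| + ∑ F ∈ waveTests Ξ, ∑ b : Bool,
        |av M (fun x => if x i = b then F (zField β d x i) else 0) g
          - (1 + spin b * mag M g i) / 2
            * nE (cav β (kmat n β d) M g i + spin b * rv β M g) (rv β M g) F|)) ≤ θ := h
  have hθ0 : 0 ≤ θ := le_trans (sum_nonneg fun g _ => mul_nonneg (hν g).le (mul_nonneg (by positivity)
    (sum_nonneg fun i _ => add_nonneg (abs_nonneg _) (h0 g i)))) hθ
  refine ⟨M, eM, hM, ?_, fun ξ hξ c b => ?_⟩
  · refine le_trans (sum_le_sum fun g _ => mul_le_mul_of_nonneg_left (mul_le_mul_of_nonneg_left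
      (sum_le_sum fun i _ => le_add_of_nonneg_right (h0 g i)) (by positivity)) (hν g).le)
      (hθ.trans (le_mul_of_one_le_left hθ0 hB1))
  · have hmem : waveTest ξ c ∈ waveTests Ξ := by
      simp only [waveTests, mem_image]
      exact ⟨(ξ, c), by simp [hξ], rfl⟩
    have hp : (0 : ℝ) < 1 + |ξ| := by positivity
    refine le_trans ?_ (mul_le_mul (hB ξ hξ) hθ (sum_nonneg fun g _ => mul_nonneg (hν g).le
      (mul_nonneg (by positivity) (sum_nonneg fun i _ => add_nonneg (abs_nonneg _) (h0 g i))))
      (zero_le_one.trans hB1))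
    rw [mul_sum]
    refine sum_le_sum fun g _ => ?_
    rw [mul_left_comm]
    refine mul_le_mul_of_nonneg_left ?_ (hν g).le
    rw [waveErr, mul_left_comm, mul_sum _ _ (1 + |ξ|)]
    refine mul_le_mul_of_nonneg_left (sum_le_sum fun i _ => ?_) (by positivity)
    refine le_trans ?_ (mul_le_mul_of_nonneg_left (le_add_of_nonneg_of_le (abs_nonneg _)
      (single_le_sum (f := fun F => ∑ b : Bool,
        |av M (fun x => if x i = b then F (zField β d x i) else 0) g
          - (1 + spin b * mag M g i) / 2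
            * nE (cav β (kmat n β d) M g i + spin b * rv β M g) (rv β M g) F|)
        (fun F _ => sum_nonneg fun b _ => abs_nonneg _) hmem)) hp.le)
    refine le_trans ?_ (mul_le_mul_of_nonneg_left (single_le_sum (f := fun b : Bool =>
      |av M (fun x => if x i = b then waveTest ξ c (zField β d x i) else 0) g
        - (1 + spin b * mag M g i) / 2
          * nE (cav β (kmat n β d) M g i + spin b * rv β M g) (rv β M g) (waveTest ξ c)|)
      (fun b _ => abs_nonneg _) (mem_univ b)) hp.le)
    conv_rhs => rw [← abs_of_pos hp, ← abs_mul]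
    refine le_of_eq (congrArg abs ?_)
    have eN : nE (cav β (kmat n β d) M g i + spin b * rv β M g) (rv β M g) (waveTest ξ c)
        = target ξ c b (cav β (kmat n β d) M g i) (rv β M g) / (1 + |ξ|) := by
      rw [target, ← nE_wave _ ξ (phase c) (rv_mem hβ hM g).1]
      simp only [nE, waveTest, integral_div]
    rw [eN, mul_sub]
    congr 1
    · rw [av, av, mul_sum]
      refine sum_congr rfl fun z _ => ?_
      simp only [siteWave, waveTest, zField]
      split
      · field_simp
      · simp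
    · field_simp

end Vale.Agent.P150.Fast.Entropy
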