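import Vale.Agent.P150.Fast.Goe
import Vale.Agent.P150.Fast.Chan
import Vale.Agent.P150.Fast.CurvStmt

/-!
Consequences of the norm event for the entropy bound, and the modulus of the binary entropy (P150).
-/

open MeasureTheory ProbabilityTheory Real Finset
open scoped Matrix

namespace Vale.Agent.P150.Fast.Entropy

variable {n : ℕ}

/-- A symmetric form bound gives the operator bound. -/
theorem mulVec_sq_le {K : Matrix (Fin n) (Fin n) ℝ} (hsym : K.transpose = K) {L : ℝ} (hL : 0 < L)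
    (h : ∀ v, |Ent.qform K v| ≤ L * ∑ i, v i ^ 2) (v : Fin n → ℝ) :
    ∑ i, (K *ᵥ v) i ^ 2 ≤ L ^ 2 * ∑ i, v i ^ 2 := by
  set w := K *ᵥ v with hw
  set t := 1 / L with ht
  have hsq : ∀ u : Fin n → ℝ, ∑ i, u i ^ 2 = u ⬝ᵥ u := fun u => by simp [dotProduct, pow_two]
  have hsymm : ∀ a b : Fin n → ℝ, a ⬝ᵥ (K *ᵥ b) = b ⬝ᵥ (K *ᵥ a) := fun a b => by
    rw [Matrix.dotProduct_mulVec, ← Matrix.mulVec_transpose, hsym, dotProduct_comm]
  have e1 : Ent.qform K (v + t • w) - Ent.qform K (v - t • w) = 4 * t * (w ⬝ᵥ w) := by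
    simp only [qform_eq_dot, Matrix.mulVec_add, Matrix.mulVec_sub, Matrix.mulVec_smul, dotProduct_add,
      add_dotProduct, dotProduct_sub, sub_dotProduct, smul_dotProduct, dotProduct_smul, smul_eq_mul]
    rw [hsymm v w, ← hw]
    ring
  have e2 : (v + t • w) ⬝ᵥ (v + t • w) + (v - t • w) ⬝ᵥ (v - t • w)
      = 2 * (v ⬝ᵥ v) + 2 * t ^ 2 * (w ⬝ᵥ w) := by
    simp only [dotProduct_add, add_dotProduct, dotProduct_sub, sub_dotProduct, smul_dotProduct,
      dotProduct_smul, smul_eq_mul]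
    ring
  have h1 := abs_le.1 (h (v + t • w))
  have h2 := abs_le.1 (h (v - t • w))
  rw [hsq] at h1 h2
  rw [hsq, hsq]
  have hLt : L * t = 1 := by rw [ht]; field_simp
  have h3 : 4 * t * (w ⬝ᵥ w) ≤ L * (2 * (v ⬝ᵥ v)) + 2 * t * (w ⬝ᵥ w) := by
    calc 4 * t * (w ⬝ᵥ w) ≤ L * (2 * (v ⬝ᵥ v) + 2 * t ^ 2 * (w ⬝ᵥ w)) := by
          rw [← e1, ← e2, mul_add]; linarith [h1.2, h2.1]
      _ = _ := by linear_combination (2 * t * (w ⬝ᵥ w)) * hLt
  have h4 := mul_le_mul_of_nonneg_left h3 hL.le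
  nlinarith

/-- On the norm event the matrices are good. -/
theorem norm_facts {β : ℝ} (hβ0 : 0 ≤ β) (hβ1 : β < 1) {d : Dis n}
    (h : ∀ v, |Ent.qform (kmat n β d) v| ≤ (2 * β + 1 / 2) * ∑ i, v i ^ 2) :
    (aop n β d).PosDef ∧ (∀ v : Fin n → ℝ, v ⬝ᵥ (aop n β d *ᵥ v) ≤ 6 * ∑ i, v i ^ 2) ∧
      ∀ v : Fin n → ℝ, ∑ i, (kmat n β d *ᵥ v) i ^ 2 ≤ 9 * ∑ i, v i ^ 2 := by
  have hsym : (kmat n β d).transpose = kmat n β d := kmat_isSymm β d
  have hform : ∀ v : Fin n → ℝ, v ⬝ᵥ (aop n β d *ᵥ v)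
      = Ent.qform (kmat n β d) v + shift β * ∑ i, v i ^ 2 := fun v => by
    rw [aop, Matrix.add_mulVec, Matrix.smul_mulVec, Matrix.one_mulVec, dotProduct_add, dotProduct_smul,
      smul_eq_mul, qform_eq_dot]
    simp [dotProduct, pow_two]
  refine ⟨Matrix.PosDef.of_dotProduct_mulVec_pos ?_ fun v hv => ?_, fun v => ?_, fun v => ?_⟩
  · show (aop n β d).conjTranspose = aop n β d
    rw [Matrix.conjTranspose_eq_transpose_of_trivial, aop, Matrix.transpose_add, hsym,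
      Matrix.transpose_smul, Matrix.transpose_one]
  · rw [star_trivial, hform, shift]
    obtain ⟨i, hi⟩ := Function.ne_iff.1 hv
    have hp : 0 < ∑ i, v i ^ 2 :=
      sum_pos' (fun j _ => sq_nonneg (v j)) ⟨i, mem_univ i, lt_of_le_of_ne (sq_nonneg _) (pow_ne_zero 2 hi).symm⟩
    nlinarith [(abs_le.1 (h v)).1]
  · rw [hform, shift]
    nlinarith [(abs_le.1 (h v)).2, sum_nonneg fun i (_ : i ∈ univ) => sq_nonneg (v i)]
  · refine (mulVec_sq_le hsym (by linarith : (0 : ℝ) < 2 * β + 1 / 2) h v).trans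
      (mul_le_mul_of_nonneg_right ?_ (sum_nonneg fun i _ => sq_nonneg _))
    nlinarith

/-- Uniform continuity of the binary entropy in linear form. -/
theorem binEnt_modulus {ε : ℝ} (hε : 0 < ε) : ∃ Kb : ℝ, 0 ≤ Kb ∧ ∀ p p' : ℝ, p ∈ Set.Icc (0 : ℝ) 1 →
    p' ∈ Set.Icc (0 : ℝ) 1 → |binEntropy p - binEntropy p'| ≤ ε + Kb * |p - p'| := by
  obtain ⟨δ, hδ, h⟩ := Metric.uniformContinuousOn_iff.1
    ((isCompact_Icc (a := (0 : ℝ)) (b := 1)).uniformContinuousOn_of_continuous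
      binEntropy_continuous.continuousOn) ε hε
  refine ⟨δ⁻¹, by positivity, fun p p' hp hp' => ?_⟩
  rcases lt_or_ge |p - p'| δ with hd | hd
  · have := h p hp p' hp' (by rwa [Real.dist_eq])
    rw [Real.dist_eq] at this
    nlinarith [mul_nonneg (inv_nonneg.2 hδ.le) (abs_nonneg (p - p'))]
  · have h1 : |binEntropy p - binEntropy p'| ≤ 1 := by
      have := (log_le_sub_one_of_pos two_pos).trans (by norm_num : (2 : ℝ) - 1 ≤ 1)
      rw [abs_le]
      constructor <;>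
        linarith [binEntropy_nonneg hp.1 hp.2, binEntropy_nonneg hp'.1 hp'.2,
          binEntropy_le_log_two (p := p), binEntropy_le_log_two (p := p')]
    have h2 : 1 ≤ δ⁻¹ * |p - p'| := by
      rw [← inv_mul_cancel₀ hδ.ne']; exact mul_le_mul_of_nonneg_left hd (inv_nonneg.2 hδ.le)
    linarith

end Vale.Agent.P150.Fast.Entropy
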