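import Vale.Agent.P150.Fast.Entropy.Scalar

/-!
The fixed point of a pinned fraction and the area bound: the sum of the site entropies along the
pinning order is at least the annealed entropy (P150).
-/

open MeasureTheory ProbabilityTheory Real Finset

namespace Vale.Agent.P150.Fast.Entropy

/-- The overlap with a fraction `p` of pinned sites. -/
def IsFix (β p q : ℝ) : Prop := 0 ≤ q ∧ q ≤ 1 ∧ q = p + (1 - p) * psi (β ^ 2 * q)

variable {β : ℝ}

theorem exists_fix (β : ℝ) {p : ℝ} (hp0 : 0 ≤ p) (hp1 : p ≤ 1) : ∃ q, IsFix β p q := by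
  have hc : Continuous fun q => q - (p + (1 - p) * psi (β ^ 2 * q)) :=
    continuous_id.sub (continuous_const.add (continuous_const.mul
      (continuous_psi.comp (continuous_const.mul continuous_id))))
  have h := intermediate_value_Icc (zero_le_one (α := ℝ)) hc.continuousOn
  have h0 : (0 : ℝ) - (p + (1 - p) * psi (β ^ 2 * 0)) ≤ 0 := by
    have := mul_nonneg (sub_nonneg.2 hp1) (psi_mem (β ^ 2 * 0)).1
    linarith
  have h1 : 0 ≤ (1 : ℝ) - (p + (1 - p) * psi (β ^ 2 * 1)) := by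
    have := mul_le_of_le_one_right (sub_nonneg.2 hp1) (psi_mem (β ^ 2 * 1)).2.le
    linarith
  obtain ⟨q, hq, e⟩ := h ⟨h0, h1⟩
  exact ⟨q, hq.1, hq.2, by linarith⟩

/-- An approximate fixed point is close to the fixed point. -/
theorem fix_stable (hβ : β ^ 2 < 1) {p q q' r : ℝ} (hp0 : 0 ≤ p) (hp1 : p ≤ 1) (h : IsFix β p q)
    (hq0 : 0 ≤ q') (hr : |q' - (p + (1 - p) * psi (β ^ 2 * q'))| ≤ r) :
    |q' - q| ≤ r / (1 - β ^ 2) := by
  have hl := psi_lip (mul_nonneg (sq_nonneg β) hq0) (mul_nonneg (sq_nonneg β) h.1)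
  rw [← mul_sub, abs_mul, abs_of_nonneg (sq_nonneg β)] at hl
  have e : |q' - q| ≤ r + (1 - p) * |psi (β ^ 2 * q') - psi (β ^ 2 * q)| := by
    calc |q' - q| = |(q' - (p + (1 - p) * psi (β ^ 2 * q')))
          + (1 - p) * (psi (β ^ 2 * q') - psi (β ^ 2 * q))| := by
            congr 1; linear_combination -h.2.2
      _ ≤ _ := (abs_add_le _ _).trans (by rw [abs_mul, abs_of_nonneg (sub_nonneg.2 hp1)]; linarith)
  rw [le_div_iff₀ (by linarith)]
  have : (1 - p) * |psi (β ^ 2 * q') - psi (β ^ 2 * q)| ≤ β ^ 2 * |q' - q| :=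
    (mul_le_of_le_one_left (abs_nonneg _) (by linarith)).trans hl
  linarith

theorem fix_unique (hβ : β ^ 2 < 1) {p q q' : ℝ} (hp0 : 0 ≤ p) (hp1 : p ≤ 1) (h : IsFix β p q)
    (h' : IsFix β p q') : q' = q := by
  have := fix_stable hβ hp0 hp1 h h'.1 (r := 0) (by rw [← h'.2.2, sub_self, abs_zero])
  rw [zero_div, abs_nonpos_iff, sub_eq_zero] at this
  exact this

theorem fix_mono (hβ : β ^ 2 < 1) {p p' q q' : ℝ} (hp0 : 0 ≤ p) (hp : p ≤ p') (hp1 : p' ≤ 1) (h : IsFix β p q)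
    (h' : IsFix β p' q') : q ≤ q' := by
  by_contra hlt
  push Not at hlt
  have hd := psi_lip (mul_nonneg (sq_nonneg β) h.1) (mul_nonneg (sq_nonneg β) h'.1)
  rw [← mul_sub, abs_mul, abs_of_nonneg (sq_nonneg β), abs_of_pos (sub_pos.2 hlt)] at hd
  have hd' := (le_abs_self _).trans hd
  have e : q - q' = -(p' - p) * (1 - psi (β ^ 2 * q))
      + (1 - p') * (psi (β ^ 2 * q) - psi (β ^ 2 * q')) := by
    linear_combination h.2.2 - h'.2.2
  have h1 : 0 ≤ (p' - p) * (1 - psi (β ^ 2 * q)) :=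
    mul_nonneg (sub_nonneg.2 hp) (sub_nonneg.2 (psi_mem _).2.le)
  have h2 : (1 - p') * (psi (β ^ 2 * q) - psi (β ^ 2 * q')) ≤ β ^ 2 * (q - q') := by
    refine (mul_le_mul_of_nonneg_left hd' (sub_nonneg.2 hp1)).trans
      (mul_le_of_le_one_left (mul_nonneg (sq_nonneg β) (sub_pos.2 hlt).le) (by linarith))
  nlinarith

/-- The pinned fraction at a given overlap. -/
noncomputable def pinFrac (β q : ℝ) : ℝ := (q - psi (β ^ 2 * q)) / (1 - psi (β ^ 2 * q))

theorem pinFrac_fix {p q : ℝ} (h : IsFix β p q) : pinFrac β q = p := by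
  rw [pinFrac, div_eq_iff (sub_pos.2 (psi_mem _).2).ne']
  linear_combination h.2.2

/-- The area function. -/
noncomputable def areaFun (β q : ℝ) : ℝ :=
  (pinFrac β q - 1) * hFun (β ^ 2 * q) + β ^ 2 * (q ^ 2 / 2 - q) / 2

theorem area_step (hβ0 : β ≠ 0) (hβ : β ^ 2 < 1) {a b : ℝ} (ha : 0 ≤ a) (hab : a ≤ b) :
    areaFun β b - areaFun β a ≤ hFun (β ^ 2 * a) * (pinFrac β b - pinFrac β a) := by
  have hβ2 : 0 < β ^ 2 := by positivity
  have hd : ∀ x, psi (β ^ 2 * x) ≠ 1 := fun x => (psi_mem _).2.ne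
  have cP : Continuous (pinFrac β) := by
    have := continuous_psi
    unfold pinFrac
    exact Continuous.div (by fun_prop) (by fun_prop) fun x => (sub_pos.2 (psi_mem _).2).ne'
  have cH := continuous_hFun
  set D : ℝ → ℝ := fun q => areaFun β q - hFun (β ^ 2 * a) * pinFrac β q with hD
  have cD : Continuous D := by unfold D areaFun; fun_prop
  suffices h : D b ≤ D a by simp only [hD] at h; linarith
  refine antitoneOn_of_hasDerivWithinAt_nonpos (f' := fun q =>
      ((1 - psi (β ^ 2 * q)) - (β ^ 2 * nE (β ^ 2 * q) (β ^ 2 * q) fun x => (1 - tanh x ^ 2) ^ 2) * (1 - q))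
        / (1 - psi (β ^ 2 * q)) ^ 2 * (hFun (β ^ 2 * q) - hFun (β ^ 2 * a)))
    (convex_Icc a b) cD.continuousOn (fun q hq => ?_) (fun q hq => ?_)
    (Set.left_mem_Icc.2 hab) (Set.right_mem_Icc.2 hab) hab
  · rw [interior_Icc] at hq
    have hq0 : 0 < β ^ 2 * q := mul_pos hβ2 (ha.trans_lt hq.1)
    have hl : HasDerivAt (fun t : ℝ => β ^ 2 * t) (β ^ 2) q := by
      simpa using (hasDerivAt_id' q).const_mul (β ^ 2)
    have dψ := (hasDerivAt_psi hq0).comp q hl
    have dH := (hasDerivAt_hFun hq0).comp q hl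
    have hne := (sub_pos.2 (psi_mem (β ^ 2 * q)).2).ne'
    have dP := ((hasDerivAt_id' q).sub dψ).div (dψ.const_sub 1) hne
    have dA := ((dP.sub_const 1).mul dH).add
      (((((hasDerivAt_pow 2 q).div_const 2).sub (hasDerivAt_id' q)).const_mul (β ^ 2)).div_const 2)
    refine ((dA.sub (dP.const_mul (hFun (β ^ 2 * a)))).congr_deriv ?_).hasDerivWithinAt
    simp only [Function.comp_def, Pi.div_apply, Pi.sub_apply]
    field_simp
    push_cast
    ring
  · rw [interior_Icc] at hq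
    refine mul_nonpos_iff.2 (Or.inl ⟨div_nonneg ?_ (sq_nonneg _), ?_⟩)
    · have h1 := (psi_deriv_mem (γ := β ^ 2 * q)).2
      have h0 := (psi_deriv_mem (γ := β ^ 2 * q)).1
      have h2 : β ^ 2 * (nE (β ^ 2 * q) (β ^ 2 * q) fun x => (1 - tanh x ^ 2) ^ 2) * (1 - q)
          ≤ (nE (β ^ 2 * q) (β ^ 2 * q) fun x => (1 - tanh x ^ 2) ^ 2) :=
        (mul_le_of_le_one_right (mul_nonneg hβ2.le h0) (by linarith [ha.trans hq.1.le])).trans
          (mul_le_of_le_one_left h0 hβ.le)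
      linarith
    · exact sub_nonpos.2 (hFun_anti (mul_nonneg hβ2.le ha)
        (mul_nonneg hβ2.le (ha.trans hq.1.le)) (mul_le_mul_of_nonneg_left hq.1.le hβ2.le))

/-- The area bound along the pinning order. -/
theorem area_sum (hβ : β ^ 2 < 1) {n : ℕ} (hn : 0 < n) {q : ℕ → ℝ}
    (hq : ∀ k ≤ n, IsFix β ((k : ℝ) / n) (q k)) :
    (n : ℝ) * (log 2 - β ^ 2 / 4) ≤ ∑ k ∈ range n, hFun (β ^ 2 * q k) := by
  rcases eq_or_ne β 0 with rfl | hβ0
  · simp [hFun_zero]
  have hn' : (0 : ℝ) < n := by exact_mod_cast hn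
  have hp : ∀ k ≤ n, 0 ≤ (k : ℝ) / n ∧ (k : ℝ) / n ≤ 1 := fun k hk =>
    ⟨by positivity, by rw [div_le_one hn']; exact_mod_cast hk⟩
  have step : ∀ k ∈ range n,
      (n : ℝ) * (areaFun β (q (k + 1)) - areaFun β (q k)) ≤ hFun (β ^ 2 * q k) := by
    intro k hk
    rw [mem_range] at hk
    have hm : q k ≤ q (k + 1) := fix_mono hβ (hp k hk.le).1 (by gcongr; simp) (hp _ hk).2 (hq k hk.le) (hq _ hk)
    have h := mul_le_mul_of_nonneg_left
      (area_step hβ0 hβ (hq k hk.le).1 hm) hn'.le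
    rw [pinFrac_fix (hq k hk.le), pinFrac_fix (hq _ hk)] at h
    refine h.trans (le_of_eq ?_)
    push_cast
    field_simp
    ring
  refine le_trans (le_of_eq ?_) (sum_le_sum step)
  rw [← mul_sum, sum_range_sub fun k => areaFun β (q k)]
  have f0 : q 0 = 0 := fix_unique hβ le_rfl zero_le_one ⟨le_rfl, zero_le_one, by simp [psi_zero]⟩
    (by simpa using hq 0 n.zero_le)
  have f1 : q n = 1 := fix_unique hβ zero_le_one le_rfl ⟨zero_le_one, le_rfl, by simp⟩
    (by simpa [hn'.ne'] using hq n le_rfl)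
  simp only [areaFun, pinFrac, f0, f1, mul_zero, psi_zero, hFun_zero, div_self
    (sub_pos.2 (psi_mem (β ^ 2 * 1)).2).ne']
  ring

end Vale.Agent.P150.Fast.Entropy
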