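import Vale.Agent.P150.Fast.Entropy.Pic

/-!
The chain rule for the entropy of a law on the cube: one site at a time, with the entropy of a site
bounded below by the entropy of its magnetisation given the far past (P150).
-/

open MeasureTheory ProbabilityTheory Real Finset
open scoped Matrix

namespace Vale.Agent.P150.Fast.Entropy

variable {n : ℕ} {ν : Conf n → ℝ} {S : Finset (Fin n)} {M : Conf n → Conf n → ℝ}

/-- The probability of the spins on `S`. -/
def margP (ν : Conf n → ℝ) (S : Finset (Fin n)) (x : Conf n) : ℝ := ∑ z ∈ fib S x, ν z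

/-- The entropy of the spins on `S`. -/
noncomputable def margH (ν : Conf n → ℝ) (S : Finset (Fin n)) : ℝ :=
  -∑ x, ν x * log (margP ν S x)

theorem margP_pos (hν : ∀ x, 0 < ν x) (S : Finset (Fin n)) (x : Conf n) : 0 < margP ν S x :=
  sum_pos (fun z _ => hν z) ⟨x, self_mem_fib S x⟩

theorem margH_univ : margH ν univ = -∑ x, ν x * log (ν x) := by
  simp [margH, margP, fib_univ]

theorem margH_empty (h1 : ∑ x, ν x = 1) : margH ν ∅ = 0 := by simp [margH, margP, fib_empty, h1]

theorem binEnt_le_cross {p r : ℝ} (hp0 : 0 ≤ p) (hp1 : p ≤ 1) (hr0 : 0 < r) (hr1 : r < 1) :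
    binEntropy p ≤ -(p * log r) - (1 - p) * log (1 - r) := by
  have h : ∀ a b : ℝ, 0 ≤ a → 0 < b → -(a * log a) ≤ -(a * log b) + (b - a) := by
    intro a b ha hb
    rcases ha.eq_or_lt with rfl | ha
    · simp; linarith
    · have h := log_le_sub_one_of_pos (div_pos hb ha)
      rw [log_div hb.ne' ha.ne'] at h
      have h2 := mul_le_mul_of_nonneg_left h ha.le
      rw [mul_sub, mul_sub, mul_one, mul_div_cancel₀ b ha.ne'] at h2
      linarith
  have h1 := h p r hp0 hr0
  have h2 := h (1 - p) (1 - r) (sub_nonneg.2 hp1) (sub_pos.2 hr1)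
  rw [binEntropy_eq_negMulLog_add_negMulLog_one_sub, negMulLog, negMulLog]
  linarith

theorem margP_split {i : Fin n} (hi : i ∉ S) (g : Conf n) :
    margP ν (insert i S) (Function.update g i true) + margP ν (insert i S) (Function.update g i false)
      = margP ν S g := by
  have e : ∀ b, fib (insert i S) (Function.update g i b) = (fib S g).filter fun z => z i = b := by
    intro b
    ext z
    simp only [mem_fib, mem_filter, mem_insert, forall_eq_or_imp, Function.update_self]
    rw [and_comm]
    refine and_congr_left' ⟨fun h j hj => ?_, fun h j hj => ?_⟩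
    · rw [h j hj, Function.update_of_ne (ne_of_mem_of_not_mem hj hi)]
    · rw [h j hj, Function.update_of_ne (ne_of_mem_of_not_mem hj hi)]
  simp only [margP, e]
  rw [← sum_filter_add_sum_filter_not (fib S g) fun z => z i = true]
  simp

/-- The conditional entropy of a site is at least that of its magnetisation. -/
theorem cond_step (hν : ∀ x, 0 < ν x) (hM : Far ν S M) {i : Fin n} (hi : i ∉ S) :
    ∑ g, ν g * binEntropy ((1 + mag M g i) / 2) ≤ margH ν (insert i S) - margH ν S := by
  set w : Conf n → ℝ := fun z => log (margP ν S z) - log (margP ν (insert i S) z) with hw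
  have hstat : margH ν (insert i S) - margH ν S = ∑ g, ν g * av M w g := by
    rw [hM.stat, margH, margH, sub_neg_eq_add, ← sum_neg_distrib, ← sum_add_distrib]
    exact sum_congr rfl fun z _ => by simp only [hw]; ring
  rw [hstat]
  refine sum_le_sum fun g _ => mul_le_mul_of_nonneg_left ?_ (hν g).le
  set A := margP ν (insert i S) (Function.update g i true) with hA
  set B := margP ν (insert i S) (Function.update g i false) with hB
  set P := margP ν S g with hP
  have hA0 : 0 < A := margP_pos hν _ _
  have hB0 : 0 < B := margP_pos hν _ _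
  have hP0 : 0 < P := margP_pos hν _ _
  have hAB : A + B = P := margP_split hi g
  have hpt : ∀ z, M g z * w z = M g z * ((1 + vec z i) / 2 * (log P - log A)
      + (1 - vec z i) / 2 * (log P - log B)) := by
    intro z
    by_cases hz : z ∈ fib S g
    · have h1 : margP ν S z = P := by rw [hP, margP, margP, fib_eq hz]
      have h2 : margP ν (insert i S) z = margP ν (insert i S) (Function.update g i (z i)) := by
        rw [margP, margP, fib_eq (x := Function.update g i (z i)) (z := z) ?_]
        simp only [mem_fib, mem_insert, forall_eq_or_imp, Function.update_self, true_and]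
        exact fun j hj => by
          rw [Function.update_of_ne (ne_of_mem_of_not_mem hj hi), mem_fib.1 hz j hj]
      rcases Bool.eq_false_or_eq_true (z i) with hb | hb <;>
        simp [hw, vec, spin, h1, h2, hb, hA, hB]
    · rw [hM.supp g z hz, zero_mul, zero_mul]
  have e : av M w g = (1 + mag M g i) / 2 * (log P - log A) + (1 - mag M g i) / 2 * (log P - log B) := by
    rw [av, sum_congr rfl fun z _ => hpt z]
    have : ∀ z, M g z * ((1 + vec z i) / 2 * (log P - log A) + (1 - vec z i) / 2 * (log P - log B))
        = M g z * ((2 * log P - log A - log B) / 2) + M g z * vec z i * ((log B - log A) / 2) :=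
      fun z => by ring
    simp only [this, sum_add_distrib, ← sum_mul, hM.row, mag, av]
    ring
  have hm := abs_le.1 (abs_mag_le hM g i)
  have h := binEnt_le_cross (p := (1 + mag M g i) / 2) (r := A / P) (by linarith [hm.1]) (by linarith [hm.2])
    (div_pos hA0 hP0) ((div_lt_one hP0).2 (by linarith))
  rw [show 1 - A / P = B / P by rw [eq_div_iff hP0.ne', sub_mul, div_mul_cancel₀ _ hP0.ne']; linarith,
    log_div hA0.ne' hP0.ne', log_div hB0.ne' hP0.ne'] at h
  rw [e]
  linarith

/-- The chain rule along every order of the sites. -/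
theorem chain_total (a : ℕ → ℝ)
    (h : ∀ S : Finset (Fin n), S.card < n →
      (Sᶜ.card : ℝ) * a S.card ≤ ∑ i ∈ Sᶜ, (margH ν (insert i S) - margH ν S)) :
    ∑ k ∈ range n, a k ≤ margH ν univ - margH ν ∅ := by
  suffices hall : ∀ (d : ℕ) (S : Finset (Fin n)), S.card + d = n →
      ∑ k ∈ Ico S.card n, a k ≤ margH ν univ - margH ν S by
    have h0 := hall n ∅ (by simp)
    rwa [card_empty, Nat.Ico_zero_eq_range] at h0
  intro d
  induction d with
  | zero =>
    intro S hS
    have : S = univ := eq_univ_of_card S (by simpa using hS)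
    subst this
    simp
  | succ d ih =>
    intro S hS
    have hlt : S.card < n := by omega
    have hc : 0 < (Sᶜ.card : ℝ) := by
      rw [card_compl, Fintype.card_fin, Nat.cast_pos]; omega
    have h1 := sum_le_sum (s := Sᶜ) (f := fun _ => ∑ k ∈ Ico (S.card + 1) n, a k)
      (g := fun i => margH ν univ - margH ν (insert i S)) fun i hi => by
        have e := card_insert_of_notMem (mem_compl.1 hi)
        have := ih (insert i S) (by rw [e]; omega)
        rwa [e] at this
    rw [sum_const, nsmul_eq_mul, sum_sub_distrib, sum_const, nsmul_eq_mul] at h1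
    have h2 := h S hlt
    rw [sum_sub_distrib, sum_const, nsmul_eq_mul] at h2
    rw [sum_eq_sum_Ico_succ_bot hlt]
    refine le_of_mul_le_mul_left ?_ hc
    linarith

end Vale.Agent.P150.Fast.Entropy
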