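import Vale.Agent.P150.Fast.Entropy.Pic

/-!
The squared spin gradient of an averaged wave of the coupling fields is of order `1/n` (P150).
-/

open Real Finset
open scoped Matrix

namespace Vale.Agent.P150.Fast.Entropy

variable {n : ℕ} {K : Matrix (Fin n) (Fin n) ℝ}

theorem sin_taylor (u h : ℝ) : |sin (u + h) - sin u - h * cos u| ≤ h ^ 2 := by
  have hd : ∀ t, HasDerivAt (fun t => sin (u + t) - t * cos u) (cos (u + t) - cos u) t := fun t =>
    (((hasDerivAt_id' t).const_add u).sin.sub ((hasDerivAt_id' t).mul_const (cos u))).congr_deriv (by simp)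
  have key := Convex.norm_image_sub_le_of_norm_hasDerivWithin_le (C := |h|) (s := Set.uIcc 0 h)
    (fun t _ => (hd t).hasDerivWithinAt) (fun t ht => ?_) (convex_uIcc 0 h) Set.left_mem_uIcc
    Set.right_mem_uIcc
  · simp only [Real.norm_eq_abs, sub_zero, add_zero, zero_mul] at key
    rw [← sq_abs h, pow_two]
    refine le_trans (le_of_eq (congrArg abs ?_)) key
    ring
  · rw [Real.norm_eq_abs]
    have h1 := lipschitzWith_cos.dist_le_mul (u + t) u
    simp only [Real.dist_eq, add_sub_cancel_left, NNReal.coe_one, one_mul] at h1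
    refine h1.trans ?_
    simpa using Set.abs_sub_left_of_mem_uIcc ht

/-- The gradient bound of a wave. -/
noncomputable def waveC (ξ : ℝ) : ℝ := (2 + 6 * |ξ| + 72 * ξ ^ 2) ^ 2 + 18 * ξ ^ 2

theorem waveC_nonneg (ξ : ℝ) : 0 ≤ waveC ξ := by unfold waveC; positivity

theorem mulVec_flip (x : Conf n) (i j : Fin n) :
    (K *ᵥ vec (Function.update x j true)) i = (K *ᵥ vec (Function.update x j false)) i + 2 * K i j := by
  simp only [Matrix.mulVec, dotProduct]
  rw [← sub_eq_iff_eq_add', ← sum_sub_distrib, sum_eq_single j]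
  · simp [vec, spin]; ring
  · intro l _ hl; simp [vec, Function.update_of_ne hl]
  · simp

theorem grad2_setWave (hn : 0 < n) (hsym : K.transpose = K)
    (hK : ∀ v : Fin n → ℝ, ∑ i, (K *ᵥ v) i ^ 2 ≤ 9 * ∑ i, v i ^ 2) (U : Finset (Fin n)) (ξ : ℝ)
    (c b : Bool) (x : Conf n) : grad2 (setWave K U ξ c b) x ≤ waveC ξ / n := by
  classical
  have hn' : (0 : ℝ) < n := by exact_mod_cast hn
  set z := K *ᵥ vec x with hz
  set v : Fin n → ℝ := fun i => if i ∈ U ∧ x i = b then cos (ξ * z i + phase c) else 0 with hv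
  set C0 := 2 + 6 * |ξ| + 72 * ξ ^ 2 with hC0
  have hcol : ∀ j, ∑ i, K i j ^ 2 ≤ 9 := fun j => by
    have h := hK (Pi.single j 1)
    simpa [Matrix.mulVec, dotProduct, Pi.single_apply] using h
  have hdiag : ∀ j, |K j j| ≤ 3 := fun j => by
    have h := (single_le_sum (f := fun i => K i j ^ 2) (fun i _ => sq_nonneg _) (mem_univ j)).trans (hcol j)
    rw [← abs_of_pos (by norm_num : (0 : ℝ) < 3)]
    exact sq_le_sq.1 (h.trans_eq (by norm_num))
  have hv1 : ∀ i, |v i| ≤ 1 := fun i => by
    simp only [hv]; split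
    · exact abs_cos_le_one _
    · simp
  set D : Fin n → Fin n → ℝ := fun j i => if i ∈ U then
    siteWave K ξ c b i (Function.update x j true) - siteWave K ξ c b i (Function.update x j false)
    else 0 with hD
  have hpt : ∀ j i, |D j i - 2 * ξ * K i j * v i|
      ≤ 8 * ξ ^ 2 * K i j ^ 2 + (if i = j then 2 + 6 * |ξ| else 0) := by
    intro j i
    rcases eq_or_ne i j with rfl | hij
    · rw [if_pos rfl]
      have h2 : |D i i| ≤ 2 := by
        simp only [hD]
        split
        · refine (abs_sub _ _).trans ?_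
          have : ∀ w, |siteWave K ξ c b i w| ≤ 1 := fun w => by
            unfold siteWave; split
            · exact abs_sin_le_one _
            · simp
          linarith [this (Function.update x i true), this (Function.update x i false)]
        · simp
      have h3 : |2 * ξ * K i i * v i| ≤ 6 * |ξ| := by
        rw [abs_mul, abs_mul, abs_mul, abs_two]
        calc 2 * |ξ| * |K i i| * |v i| ≤ 2 * |ξ| * 3 * 1 := by
              refine mul_le_mul (mul_le_mul_of_nonneg_left (hdiag i) (by positivity)) (hv1 i)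
                (abs_nonneg _) (by positivity)
          _ = 6 * |ξ| := by ring
      linarith [abs_sub (D i i) (2 * ξ * K i i * v i),
        mul_nonneg (mul_nonneg (by norm_num : (0 : ℝ) ≤ 8) (sq_nonneg ξ)) (sq_nonneg (K i i))]
    · rw [if_neg hij, add_zero]
      by_cases hi : i ∈ U ∧ x i = b
      · set a := (K *ᵥ vec (Function.update x j false)) i with ha
        set A := ξ * a + phase c with hA
        have hDe : D j i = sin (A + 2 * ξ * K i j) - sin A := by
          simp only [hD, if_pos hi.1, siteWave, Function.update_of_ne hij, hi.2, if_true, mulVec_flip, ← ha,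
            hA]
          congr 2
          ring
        have hcos : |cos A - cos (ξ * z i + phase c)| ≤ 2 * |ξ| * |K i j| := by
          have h1 := lipschitzWith_cos.dist_le_mul A (ξ * z i + phase c)
          simp only [Real.dist_eq, NNReal.coe_one, one_mul] at h1
          refine h1.trans ?_
          rw [hA, show ξ * a + phase c - (ξ * z i + phase c) = ξ * (a - z i) by ring, abs_mul,
            mul_comm 2 |ξ|, mul_assoc |ξ| 2]
          refine mul_le_mul_of_nonneg_left ?_ (abs_nonneg ξ)
          rcases Bool.eq_false_or_eq_true (x j) with hj | hj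
          · have e : Function.update x j true = x := by rw [← hj, Function.update_eq_self]
            have := mulVec_flip (K := K) x i j
            rw [e, ← hz, ← ha] at this
            rw [this, show a - (a + 2 * K i j) = -(2 * K i j) by ring, abs_neg, abs_mul, abs_two]
          · have e : Function.update x j false = x := by rw [← hj, Function.update_eq_self]
            rw [ha, e, ← hz, sub_self, abs_zero]
            positivity
        have hve : v i = cos (ξ * z i + phase c) := by simp only [hv]; rw [if_pos hi]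
        rw [hDe, hve, show sin (A + 2 * ξ * K i j) - sin A - 2 * ξ * K i j * cos (ξ * z i + phase c)
          = (sin (A + 2 * ξ * K i j) - sin A - 2 * ξ * K i j * cos A)
            + 2 * ξ * K i j * (cos A - cos (ξ * z i + phase c)) by ring]
        refine (abs_add_le _ _).trans ((add_le_add (sin_taylor A _) ?_).trans_eq
          (show (2 * ξ * K i j) ^ 2 + 4 * ξ ^ 2 * K i j ^ 2 = 8 * ξ ^ 2 * K i j ^ 2 by ring))
        rw [abs_mul, ← sq_abs ξ, ← sq_abs (K i j), abs_mul, abs_mul, abs_two]
        refine (mul_le_mul_of_nonneg_left hcos (by positivity)).trans_eq ?_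
        ring
      · have h0 : D j i = 0 := by
          simp only [hD]
          split
          · next hU =>
            have hx : x i ≠ b := fun h => hi ⟨hU, h⟩
            simp [siteWave, Function.update_of_ne hij, hx]
          · rfl
        have hve : v i = 0 := by simp only [hv]; rw [if_neg hi]
        rw [h0, hve, mul_zero, sub_zero, abs_zero]
        positivity
  have hdg : ∀ j, |dgrad (setWave K U ξ c b) j x| ≤ (n : ℝ)⁻¹ * (C0 / 2 + |ξ| * |(K *ᵥ v) j|) := by
    intro j
    have e : dgrad (setWave K U ξ c b) j x = (n : ℝ)⁻¹ * ((∑ i, D j i) / 2) := by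
      simp only [dgrad, setWave, hD, sum_ite_mem, univ_inter, sum_sub_distrib]
      ring
    have hKv : ∑ i, 2 * ξ * K i j * v i = 2 * (ξ * (K *ᵥ v) j) := by
      simp only [Matrix.mulVec, dotProduct, mul_sum]
      refine sum_congr rfl fun i _ => ?_
      have hji : K i j = K j i := congrFun (congrFun hsym j) i
      rw [hji]; ring
    have hs : |∑ i, D j i - 2 * (ξ * (K *ᵥ v) j)| ≤ C0 := by
      rw [← hKv, ← sum_sub_distrib]
      refine (abs_sum_le_sum_abs _ _).trans ((sum_le_sum fun i _ => hpt j i).trans ?_)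
      rw [sum_add_distrib, ← mul_sum, sum_ite_eq', if_pos (mem_univ j), hC0]
      linarith [mul_le_mul_of_nonneg_left (hcol j) (by positivity : (0 : ℝ) ≤ 8 * ξ ^ 2)]
    rw [e, abs_mul, abs_of_pos (inv_pos.2 hn'), abs_div, abs_two]
    refine mul_le_mul_of_nonneg_left ?_ (by positivity)
    rw [div_le_iff₀ (by norm_num : (0 : ℝ) < 2)]
    have := abs_sub_abs_le_abs_sub (∑ i, D j i) (2 * (ξ * (K *ᵥ v) j))
    rw [abs_mul, abs_mul, abs_two] at this
    linarith
  have hv2 : ∑ i, v i ^ 2 ≤ n :=
    (sum_le_sum (g := fun _ => (1 : ℝ)) fun i _ => (sq_le_one_iff_abs_le_one _).2 (hv1 i)).trans (by simp)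
  have hsq : ∀ j, dgrad (setWave K U ξ c b) j x ^ 2
      ≤ ((n : ℝ)⁻¹) ^ 2 * (C0 ^ 2 / 2 + 2 * ξ ^ 2 * (K *ᵥ v) j ^ 2) := by
    intro j
    have h := mul_self_le_mul_self (abs_nonneg _) (hdg j)
    rw [abs_mul_abs_self] at h
    rw [pow_two]
    refine h.trans ?_
    rw [← pow_two, mul_pow]
    refine mul_le_mul_of_nonneg_left ?_ (by positivity)
    rw [add_sq, mul_pow, sq_abs, sq_abs]
    nlinarith [sq_nonneg (C0 / 2 - |ξ| * |(K *ᵥ v) j|), sq_abs ξ, sq_abs ((K *ᵥ v) j)]
  refine (sum_le_sum fun j _ => hsq j).trans ?_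
  rw [← mul_sum, sum_add_distrib, sum_const, card_univ, Fintype.card_fin, nsmul_eq_mul, ← mul_sum, waveC,
    ← hC0]
  have h1 := mul_le_mul_of_nonneg_left ((hK v).trans (mul_le_mul_of_nonneg_left hv2 (by norm_num)))
    (by positivity : (0 : ℝ) ≤ 2 * ξ ^ 2)
  rw [le_div_iff₀ hn']
  have e : ((n : ℝ)⁻¹) ^ 2 * (n * n) = 1 := by field_simp
  calc ((n : ℝ)⁻¹) ^ 2 * (n * (C0 ^ 2 / 2) + 2 * ξ ^ 2 * ∑ i, (K *ᵥ v) i ^ 2) * n
      ≤ ((n : ℝ)⁻¹) ^ 2 * ((C0 ^ 2 + 18 * ξ ^ 2) * n) * n := by
        refine mul_le_mul_of_nonneg_right (mul_le_mul_of_nonneg_left ?_ (by positivity)) hn'.le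
        nlinarith [sq_nonneg C0]
    _ = C0 ^ 2 + 18 * ξ ^ 2 := by linear_combination (C0 ^ 2 + 18 * ξ ^ 2) * e

end Vale.Agent.P150.Fast.Entropy
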