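import Vale.Agent.P150.Fast.Entropy.Deconv
import Vale.Agent.P150.Fast.Entropy.Chain
import Vale.Agent.P150.Fast.Entropy.WaveGrad
import Vale.Agent.P150.Fast.Entropy.Setup

/-!
The mean waves of every set of sites from the picture at zero pinning, and the lower bound on the
entropy of a law from the pictures at every set of pins (P150).
-/

open MeasureTheory ProbabilityTheory Real Finset
open scoped Matrix

namespace Vale.Agent.P150.Fast.Entropy

variable {n : ℕ} {ν : Conf n → ℝ} {β : ℝ} {K : Matrix (Fin n) (Fin n) ℝ}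

/-- The weight of one cosine in the error. -/
noncomputable def cw (ξ : ℝ) : ℝ := 4 * exp (ξ ^ 2) + 1

theorem waves_small (hKer : KerStmt) (hPV : PathVarStmt) (hPE : PathEndStmt) (hCT : CurvTailStmt)
    (hn : 0 < n) (hβ : β ^ 2 ≤ 1) (hν : ∀ x, 0 < ν x) (h1 : ∑ x, ν x = 1) (hsym : K.transpose = K)
    (hK : ∀ v : Fin n → ℝ, ∑ i, (K *ᵥ v) i ^ 2 ≤ 9 * ∑ i, v i ^ 2) {s : Step n} {L : ℝ} (hL : 0 ≤ L)
    (hs : s.Good L) {η : ℝ} (hD : freeD ν s ≤ η * n) {θ : ℝ} {Ξ : Finset ℝ} {T Tmax : ℕ} (hT : T ≤ Tmax)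
    {M : Conf n → Conf n → ℝ} (hM : ∀ f g, powOp (kerOf (pR ν) s) T f g = av M f g)
    (hP : Pic β K ν ∅ M θ Ξ) {τ κ : ℝ} (hτ : 0 ≤ τ) (hκ : 0 < κ) (hκ1 : κ ≤ 1)
    (hSF : ∀ m : Fin n → ℝ, (∀ i, |m i| ≤ 1) → τ * n ≤ ∑ i, m i ^ 2 →
      Ent.qform K m + κ * n ≤ ∑ i, satS (m i) + β ^ 2 * (1 - qn m) * ∑ i, m i ^ 2)
    (hη : 0 ≤ η) {a l : ℝ} (ha : 0 < a) (hl : 0 < l) (U : Finset (Fin n)) {ξ : ℝ} (hξ : ξ ∈ Ξ)
    (c b : Bool) :
    ∑ x, ν x * |setWave K U ξ c b x - (U.card : ℝ) / n * (target ξ c b 0 (β ^ 2) / 2)|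
      ≤ 2 * (Tmax * η / l + log 2 / (l * n) + mgfC L * curvC L ^ Tmax * waveC ξ * l)
        + (θ + (1 + |ξ| + ξ ^ 2) * (a + (12 / a + 1) * (τ + 200 / κ ^ 2 * θ))) := by
  set C := (U.card : ℝ) / n * (target ξ c b 0 (β ^ 2) / 2) with hC
  refine (emp_conc hKer hPV hPE hCT hn hν h1 hL hs hl hD (grad2_setWave hn hsym hK U ξ c b) T C).trans ?_
  have hmg : 0 ≤ mgfC L := by unfold mgfC; linarith
  have hpow : curvC L ^ T ≤ curvC L ^ Tmax := pow_le_pow_right₀ (curvC_one_le hL) hT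
  have hTr : (T : ℝ) ≤ Tmax := by exact_mod_cast hT
  refine add_le_add (mul_le_mul_of_nonneg_left (add_le_add (add_le_add ?_ le_rfl) ?_) two_pos.le) ?_
  · exact div_le_div_of_nonneg_right (mul_le_mul_of_nonneg_right hTr hη) hl.le
  · exact mul_le_mul_of_nonneg_right
      (mul_le_mul_of_nonneg_right (mul_le_mul_of_nonneg_left hpow hmg) (waveC_nonneg ξ)) hl.le
  simp only [hM]
  set P := 1 + |ξ| + ξ ^ 2 with hPdef
  have hP0 : 0 ≤ P := by positivity
  have ha0 : 0 ≤ 12 / a + 1 := by positivity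
  have hq : ∑ g, ν g * qv M g ≤ τ + 200 / κ ^ 2 * θ := by
    refine (sum_le_sum fun g _ => mul_le_mul_of_nonneg_left
      (overlap_le hn hβ hP.toFar hK hτ hκ hκ1 hSF g) (hν g).le).trans ?_
    simp only [mul_add, sum_add_distrib, ← sum_mul, h1, one_mul, mul_left_comm (ν _), ← mul_sum]
    exact add_le_add (le_of_eq (by simp))
      (mul_le_mul_of_nonneg_left hP.magSmall (by positivity))
  refine (sum_le_sum fun g _ => mul_le_mul_of_nonneg_left
    (zero_wave hn hβ hP.toFar hK U ξ c b ha g) (hν g).le).trans ?_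
  simp only [mul_add, sum_add_distrib, ← hPdef]
  refine add_le_add (hP.waveSmall ξ hξ c b) ?_
  have e1 : ∑ g, ν g * (P * a) = P * a := by rw [← sum_mul, h1, one_mul]
  have e2 : ∑ g, ν g * (P * ((12 / a + 1) * qv M g)) = P * ((12 / a + 1) * ∑ g, ν g * qv M g) := by
    simp only [mul_sum]; exact sum_congr rfl fun g _ => by ring
  rw [e1, e2]
  refine add_le_add le_rfl ?_
  have := mul_le_mul_of_nonneg_left (mul_le_mul_of_nonneg_left hq ha0) hP0
  linarith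

/-- The entropy from the pictures at every set of pins. -/
theorem entropy_lower (hn : 0 < n) (hβ : β ^ 2 < 1) (hν : ∀ x, 0 < ν x) (h1 : ∑ x, ν x = 1)
    (hK : ∀ v : Fin n → ℝ, ∑ i, (K *ᵥ v) i ^ 2 ≤ 9 * ∑ i, v i ^ 2) {θ e : ℝ} {Ξ : Finset ℝ}
    (hP : ∀ S : Finset (Fin n), ∃ M, Pic β K ν S M θ Ξ)
    (hW : ∀ (U : Finset (Fin n)), ∀ ξ ∈ Ξ, ∀ c b,
      ∑ x, ν x * |setWave K U ξ c b x - (U.card : ℝ) / n * (target ξ c b 0 (β ^ 2) / 2)| ≤ e)
    (he : 0 ≤ e)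
    {ε Kb : ℝ} (hε : 0 ≤ ε) (hKb0 : 0 ≤ Kb)
    (hKb : ∀ p p' : ℝ, p ∈ Set.Icc (0 : ℝ) 1 → p' ∈ Set.Icc (0 : ℝ) 1 →
      |binEntropy p - binEntropy p'| ≤ ε + Kb * |p - p'|)
    {m₁ : ℕ} {a₁ ξ₁ : Fin m₁ → ℝ} (h₁ : ∀ x, |tanh x ^ 2 - cosSum a₁ ξ₁ x| ≤ ε * (1 + x ^ 2))
    (hm₁ : ∀ j, ξ₁ j ∈ Ξ)
    {m₂ : ℕ} {a₂ ξ₂ : Fin m₂ → ℝ} (h₂ : ∀ x, |siteH x - cosSum a₂ ξ₂ x| ≤ ε * (1 + x ^ 2))
    (hm₂ : ∀ j, ξ₂ j ∈ Ξ) {τ ε₂ : ℝ} (hε₂ : 0 < ε₂) (hbig : 1 ≤ ε₂ * n)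
    (hτ : 25 * ε + 24 * ε / (1 - β ^ 2) + (θ + e) * (Kb / 2 + ∑ j, |a₂ j| * cw (ξ₂ j)
      + (2 + ∑ j, |a₁ j| * cw (ξ₁ j)) / (1 - β ^ 2)) ≤ τ) :
    (n : ℝ) * (log 2 - β ^ 2 / 4 - τ / ε₂ - 2 * ε₂) ≤ -∑ x, ν x * log (ν x) := by
  classical
  have hn' : (0 : ℝ) < n := by exact_mod_cast hn
  have hc : 0 < 1 - β ^ 2 := by linarith
  have hfix : ∀ k : ℕ, ∃ q, k ≤ n → IsFix β ((k : ℝ) / n) q := fun k => by
    rcases le_or_gt k n with h | h
    · obtain ⟨q, hq⟩ := exists_fix β (p := (k : ℝ) / n) (by positivity)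
        (by rw [div_le_one hn']; exact_mod_cast h)
      exact ⟨q, fun _ => hq⟩
    · exact ⟨0, fun h' => absurd h' (not_le.2 h)⟩
  choose q hq using hfix
  set H := fun k => hFun (β ^ 2 * q k) with hH
  have hH1 : ∀ k, H k ≤ 1 := fun k => (abs_le.1 (abs_nE_le abs_siteH_le _ _)).2
  have hstep : ∀ S : Finset (Fin n), (Sᶜ.card : ℝ) * H S.card - τ * n
      ≤ ∑ i ∈ Sᶜ, (margH ν (insert i S) - margH ν S) ∧
      0 ≤ ∑ i ∈ Sᶜ, (margH ν (insert i S) - margH ν S) := by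
    intro S
    obtain ⟨M, hM⟩ := hP S
    have hcs := fun i (hi : i ∈ Sᶜ) => cond_step hν hM.toFar (mem_compl.1 hi)
    have hnn : 0 ≤ ∑ i ∈ Sᶜ, (margH ν (insert i S) - margH ν S) := sum_nonneg fun i hi =>
      le_trans (sum_nonneg fun g _ => mul_nonneg (hν g).le (binEntropy_nonneg
        (by linarith [(abs_le.1 (abs_mag_le hM.toFar g i)).1])
        (by linarith [(abs_le.1 (abs_mag_le hM.toFar g i)).2]))) (hcs i hi)
    refine ⟨?_, hnn⟩
    have hcos : ∀ ξ ∈ Ξ, ∑ g, ν g * cosErr β K S M ξ g ≤ cw ξ * (θ + e) := by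
      intro ξ hξ
      have hd : ∀ c b, ∑ g, ν g * waveDev β K S M ξ c b g ≤ θ + e := fun c b => by
        refine (sum_le_sum fun g _ => mul_le_mul_of_nonneg_left (waveDev_le ξ c b g _ rfl) (hν g).le).trans ?_
        simp only [mul_add, sum_add_distrib]
        exact add_le_add (hM.waveSmall ξ hξ c b)
          ((mean_abs_av_le hM.toFar (fun x => (hν x).le) _ _).trans (hW Sᶜ ξ hξ c b))
      simp only [cosErr, cw, mul_add, sum_add_distrib, add_mul, one_mul, mul_left_comm (ν _), ← mul_sum,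
        Fintype.sum_bool]
      have := exp_pos (ξ ^ 2)
      nlinarith [hd true true, hd true false, hd false true, hd false false, hM.magSmall]
    have hsum : ∀ {m : ℕ} (a ξ : Fin m → ℝ), (∀ j, ξ j ∈ Ξ) →
        ∑ g, ν g * ∑ j, |a j| * cosErr β K S M (ξ j) g ≤ (θ + e) * ∑ j, |a j| * cw (ξ j) := by
      intro m a ξ hm
      simp only [mul_sum]
      rw [sum_comm]
      refine sum_le_sum fun j _ => ?_
      have e : ∀ g, ν g * (|a j| * cosErr β K S M (ξ j) g) = |a j| * (ν g * cosErr β K S M (ξ j) g) :=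
        fun g => by ring
      simp only [e, ← mul_sum]
      refine (mul_le_mul_of_nonneg_left (hcos _ (hm j)) (abs_nonneg _)).trans_eq ?_
      ring
    have hmag : ∑ g, ν g * magErr β K S M g ≤ θ + e := hM.magSmall.trans (le_add_of_nonneg_right he)
    set c' := (1 - β ^ 2)⁻¹ with hc'
    have hc'0 : 0 ≤ c' := inv_nonneg.2 hc.le
    set B := fun g => ∑ i ∈ Sᶜ, binEntropy ((1 + mag M g i) / 2) with hB
    set A1 := fun g => ∑ j, |a₁ j| * cosErr β K S M (ξ₁ j) g with hA1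
    set A2 := fun g => ∑ j, |a₂ j| * cosErr β K S M (ξ₂ j) g with hA2
    have hpt : ∀ g, (Sᶜ.card : ℝ) / n * H S.card ≤ (25 * ε + c' * (24 * ε)) + (n : ℝ)⁻¹ * B g
        + (Kb / 2 + c' * 2) * magErr β K S M g + A2 g + c' * A1 g := by
      intro g
      have h := pin_bound hn hβ hM.toFar hK hε hKb h₁ h₂
        (hq S.card ((card_le_univ _).trans_eq (Fintype.card_fin n))) g
      rw [div_eq_inv_mul _ (1 - β ^ 2), ← hc'] at h
      simp only [hH, hB, hA1, hA2]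
      linarith
    have e0 : ∀ (c : ℝ) (F : Conf n → ℝ), ∑ g, ν g * (c * F g) = c * ∑ g, ν g * F g := fun c F => by
      rw [mul_sum]; exact sum_congr rfl fun g _ => mul_left_comm _ _ _
    have hb := sum_le_sum (s := univ) fun g _ => mul_le_mul_of_nonneg_left (hpt g) (hν g).le
    simp only [mul_add (ν _), sum_add_distrib, e0, ← sum_mul, h1, one_mul] at hb
    have hbin : ∑ g, ν g * B g ≤ ∑ i ∈ Sᶜ, (margH ν (insert i S) - margH ν S) := by
      simp only [hB, mul_sum]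
      rw [sum_comm]
      exact sum_le_sum hcs
    have k0 := mul_le_mul_of_nonneg_left hbin (inv_nonneg.2 hn'.le)
    have k1 := mul_le_mul_of_nonneg_left (hsum a₁ ξ₁ hm₁) hc'0
    have k2 := hsum a₂ ξ₂ hm₂
    have k3 := mul_le_mul_of_nonneg_left hmag (show 0 ≤ Kb / 2 + c' * 2 by positivity)
    rw [div_eq_inv_mul _ (1 - β ^ 2), div_eq_inv_mul _ (1 - β ^ 2), ← hc'] at hτ
    have hu : (Sᶜ.card : ℝ) / n * H S.card
        ≤ (n : ℝ)⁻¹ * ∑ i ∈ Sᶜ, (margH ν (insert i S) - margH ν S) + τ := by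
      simp only [hA1, hA2] at hb
      linarith
    have := mul_le_mul_of_nonneg_left hu hn'.le
    rw [mul_add, ← mul_assoc (n : ℝ), ← mul_assoc (n : ℝ), mul_div_cancel₀ _ hn'.ne',
      mul_inv_cancel₀ hn'.ne', one_mul] at this
    linarith
  set a := fun k : ℕ => if ε₂ * n ≤ (n : ℝ) - k then H k - τ / ε₂ else 0 with ha
  have hτ0 : 0 ≤ τ := by
    by_contra h0
    push Not at h0
    obtain ⟨M, hM⟩ := hP univ
    have := (hstep univ).1
    simp [compl_univ] at this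
    nlinarith
  have hchain := chain_total (ν := ν) a (fun S hS => by
    simp only [ha]
    split
    · next hk =>
      refine le_trans ?_ (hstep S).1
      have hcard : (Sᶜ.card : ℝ) = n - S.card := by
        rw [card_compl, Fintype.card_fin, Nat.cast_sub ((card_le_univ _).trans (Fintype.card_fin n).le)]
      rw [← hcard] at hk
      have : τ * n ≤ (Sᶜ.card : ℝ) * (τ / ε₂) := by
        rw [← mul_div_assoc, le_div_iff₀ hε₂]; nlinarith
      linarith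
    · rw [mul_zero]; exact (hstep S).2)
  rw [margH_univ, margH_empty h1, sub_zero] at hchain
  refine le_trans ?_ hchain
  have harea := area_sum hβ hn (q := q) fun k hk => hq k hk
  have hlow : ∀ k, H k - τ / ε₂ - (if ε₂ * n ≤ (n : ℝ) - k then (0 : ℝ) else 1) ≤ a k := fun k => by
    simp only [ha]; split
    · simp
    · have := div_nonneg hτ0 hε₂.le
      linarith [hH1 k]
  refine le_trans ?_ (sum_le_sum fun k _ => hlow k)
  rw [sum_sub_distrib, sum_sub_distrib, sum_const, card_range, nsmul_eq_mul]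
  have hcount : ∑ k ∈ range n, (if ε₂ * n ≤ (n : ℝ) - k then (0 : ℝ) else 1) ≤ 2 * ε₂ * n := by
    set m := ⌈ε₂ * n⌉₊ with hm
    have hsub : (range n).filter (fun k : ℕ => ¬ ε₂ * n ≤ (n : ℝ) - k) ⊆ Ico (n - m) n := by
      intro k hk
      rw [mem_filter, mem_range] at hk
      rw [mem_Ico]
      refine ⟨?_, hk.1⟩
      by_contra hkm
      push Not at hkm
      have h2 : ((k + m : ℕ) : ℝ) ≤ n := by exact_mod_cast (show k + m ≤ n by omega)
      push_cast at h2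
      exact hk.2 (by linarith [Nat.le_ceil (ε₂ * n)])
    have hcd := (card_le_card hsub).trans (by rw [Nat.card_Ico]; omega : _ ≤ m)
    have hmle : (m : ℝ) ≤ 2 * ε₂ * n := by
      linarith [(Nat.ceil_lt_add_one (mul_nonneg hε₂.le hn'.le) : (m : ℝ) < ε₂ * n + 1)]
    have e : ∑ k ∈ range n, (if ε₂ * n ≤ (n : ℝ) - k then (0 : ℝ) else 1)
        = (((range n).filter fun k : ℕ => ¬ ε₂ * n ≤ (n : ℝ) - k).card : ℝ) := by
      rw [sum_ite, sum_const_zero, zero_add, sum_const, nsmul_eq_mul, mul_one]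
    rw [e]
    exact (Nat.cast_le.2 hcd).trans hmle
  simp only [hH]
  linarith

end Vale.Agent.P150.Fast.Entropy
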