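import Vale.Agent.P150.Fast.Entropy.Pic
import Vale.Agent.P150.Fast.Entropy.Approx
import Vale.Agent.P150.Fast.Entropy.Area

/-!
From the waves of the picture to the law of the cavity fields given the far past: the overlap solves
the fixed point and the site entropies are at least their value there (P150).
-/

open MeasureTheory ProbabilityTheory Real Finset
open scoped Matrix

namespace Vale.Agent.P150.Fast.Entropy

variable {n : ℕ} {ν : Conf n → ℝ} {S : Finset (Fin n)} {M : Conf n → Conf n → ℝ} {β : ℝ}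
  {K : Matrix (Fin n) (Fin n) ℝ}

/-- The wave means at the free sites less their value for the field `N(bβ², β²)`. -/
noncomputable def waveDev (β : ℝ) (K : Matrix (Fin n) (Fin n) ℝ) (S : Finset (Fin n))
    (M : Conf n → Conf n → ℝ) (ξ : ℝ) (c b : Bool) (g : Conf n) : ℝ :=
  |(n : ℝ)⁻¹ * ∑ i ∈ Sᶜ, (1 + spin b * mag M g i) / 2 * target ξ c b (cav β K M g i) (rv β M g)
    - (Sᶜ.card : ℝ) / n * (target ξ c b 0 (β ^ 2) / 2)|

/-- The error of one cosine. -/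
noncomputable def cosErr (β : ℝ) (K : Matrix (Fin n) (Fin n) ℝ) (S : Finset (Fin n))
    (M : Conf n → Conf n → ℝ) (ξ : ℝ) (g : Conf n) : ℝ :=
  exp (ξ ^ 2) * ∑ c : Bool, ∑ b : Bool, waveDev β K S M ξ c b g + magErr β K S M g

theorem waveDev_le (ξ : ℝ) (c b : Bool) (g : Conf n) (C : ℝ)
    (hC : C = (Sᶜ.card : ℝ) / n * (target ξ c b 0 (β ^ 2) / 2)) :
    waveDev β K S M ξ c b g
      ≤ waveErr β K S M ξ c b g + |av M (setWave K Sᶜ ξ c b) g - C| := by
  subst hC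
  rw [waveDev, waveErr, av_setWave]
  have e : |(n : ℝ)⁻¹ * ∑ i ∈ Sᶜ, (1 + spin b * mag M g i) / 2
        * target ξ c b (cav β K M g i) (rv β M g) - (n : ℝ)⁻¹ * ∑ i ∈ Sᶜ, av M (siteWave K ξ c b i) g|
      ≤ (n : ℝ)⁻¹ * ∑ i ∈ Sᶜ, |av M (siteWave K ξ c b i) g
        - (1 + spin b * mag M g i) / 2 * target ξ c b (cav β K M g i) (rv β M g)| := by
    rw [← mul_sub, ← sum_sub_distrib, abs_mul, abs_of_nonneg (inv_nonneg.2 (Nat.cast_nonneg n))]
    refine mul_le_mul_of_nonneg_left ((abs_sum_le_sum_abs _ _).trans_eq ?_) (by positivity)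
    exact sum_congr rfl fun i _ => abs_sub_comm _ _
  exact (abs_sub_le _ _ _).trans (add_le_add e le_rfl)

/-- The cosine transform of the cavity fields at the free sites. -/
theorem deconv_cos (hβ : β ^ 2 ≤ 1) (hM : Far ν S M) (ξ : ℝ) (g : Conf n) :
    |(n : ℝ)⁻¹ * ∑ i ∈ Sᶜ, cos (ξ * cav β K M g i)
      - (Sᶜ.card : ℝ) / n * (exp (-(ξ ^ 2 * (β ^ 2 * qv M g)) / 2) * cos (ξ * (β ^ 2 * qv M g)))|
      ≤ cosErr β K S M ξ g := by
  obtain ⟨r0, r1⟩ := rv_mem hβ hM g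
  set R := rv β M g with hR
  set E := exp (ξ ^ 2 * R / 2) with hE
  set W : Bool → Bool → ℝ := fun c b => (n : ℝ)⁻¹ * ∑ i ∈ Sᶜ,
    (1 + spin b * mag M g i) / 2 * target ξ c b (cav β K M g i) R
    - (Sᶜ.card : ℝ) / n * (target ξ c b 0 (β ^ 2) / 2) with hW
  have hT : ∀ b μ R', E * (cos (ξ * (spin b * R)) * target ξ true b μ R'
      + sin (ξ * (spin b * R)) * target ξ false b μ R')
      = exp (ξ ^ 2 * (R - R') / 2) * cos (ξ * (μ + spin b * R' - spin b * R)) := by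
    intro b μ R'
    simp only [target, phase, if_pos, Bool.false_eq_true, if_false, add_zero, sin_add_pi_div_two, hE]
    rw [show ξ ^ 2 * (R - R') / 2 = ξ ^ 2 * R / 2 + -(ξ ^ 2 * R') / 2 by ring, exp_add,
      show ξ * (μ + spin b * R' - spin b * R) = ξ * (μ + spin b * R') - ξ * (spin b * R) by ring, cos_sub]
    ring
  have hγ : β ^ 2 * qv M g = β ^ 2 - R := by rw [hR, rv]; ring
  set T := exp (-(ξ ^ 2 * (β ^ 2 * qv M g)) / 2) * cos (ξ * (β ^ 2 * qv M g)) with hTdef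
  set X : Bool → ℝ := fun b => (n : ℝ)⁻¹ * ∑ i ∈ Sᶜ, (1 + spin b * tanh (cav β K M g i)) / 2
      * cos (ξ * cav β K M g i) - (Sᶜ.card : ℝ) / n * (T / 2) with hX
  have key : ∀ b, |X b| ≤ magErr β K S M g / 2
      + exp (ξ ^ 2) * (waveDev β K S M ξ true b g + waveDev β K S M ξ false b g) := by
    intro b
    have e0 : X b = (n : ℝ)⁻¹ * ∑ i ∈ Sᶜ, spin b * (tanh (cav β K M g i) - mag M g i) / 2
          * cos (ξ * cav β K M g i)
        + E * (cos (ξ * (spin b * R)) * W true b + sin (ξ * (spin b * R)) * W false b) := by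
      have h1 : ∀ i, E * (cos (ξ * (spin b * R)) * target ξ true b (cav β K M g i) R
          + sin (ξ * (spin b * R)) * target ξ false b (cav β K M g i) R) = cos (ξ * cav β K M g i) :=
        fun i => by rw [hT]; simp
      have h2 : E * (cos (ξ * (spin b * R)) * target ξ true b 0 (β ^ 2)
          + sin (ξ * (spin b * R)) * target ξ false b 0 (β ^ 2)) = T := by
        rw [hT, hTdef, hγ, show ξ ^ 2 * (R - β ^ 2) / 2 = -(ξ ^ 2 * (β ^ 2 - R)) / 2 by ring]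
        congr 1
        rcases b with _ | _
        · rw [show ξ * (0 + spin false * β ^ 2 - spin false * R) = -(ξ * (β ^ 2 - R)) by
            simp [spin]; ring, cos_neg]
        · simp [spin]
      have h3 : ∑ i ∈ Sᶜ, (1 + spin b * tanh (cav β K M g i)) / 2 * cos (ξ * cav β K M g i)
          = ∑ i ∈ Sᶜ, spin b * (tanh (cav β K M g i) - mag M g i) / 2 * cos (ξ * cav β K M g i)
            + E * (cos (ξ * (spin b * R)) * ∑ i ∈ Sᶜ,
                (1 + spin b * mag M g i) / 2 * target ξ true b (cav β K M g i) R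
              + sin (ξ * (spin b * R)) * ∑ i ∈ Sᶜ,
                (1 + spin b * mag M g i) / 2 * target ξ false b (cav β K M g i) R) := by
        simp only [mul_sum, mul_add, ← sum_add_distrib]
        exact sum_congr rfl fun i _ => by linear_combination -(1 + spin b * mag M g i) / 2 * h1 i
      simp only [hX, hW]
      rw [h3]
      linear_combination ((Sᶜ.card : ℝ) / n / 2) * h2
    rw [e0]
    refine (abs_add_le _ _).trans (add_le_add ?_ ?_)
    · rw [abs_mul, abs_of_nonneg (inv_nonneg.2 (Nat.cast_nonneg n)), magErr, mul_div_assoc, sum_div]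
      refine mul_le_mul_of_nonneg_left ((abs_sum_le_sum_abs _ _).trans (sum_le_sum fun i _ => ?_))
        (by positivity)
      rw [abs_mul, abs_div, abs_mul, abs_spin, one_mul, abs_two, abs_sub_comm]
      exact mul_le_of_le_one_right (by positivity) (abs_cos_le_one _)
    · rw [abs_mul, abs_of_pos (exp_pos _)]
      refine mul_le_mul (exp_le_exp.2 ?_) ((abs_add_le _ _).trans (add_le_add ?_ ?_)) (abs_nonneg _)
        (exp_pos _).le
      · linarith [mul_le_mul_of_nonneg_left r1 (sq_nonneg ξ), sq_nonneg ξ]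
      · rw [abs_mul]; exact mul_le_of_le_one_left (abs_nonneg _) (abs_cos_le_one _)
      · rw [abs_mul]; exact mul_le_of_le_one_left (abs_nonneg _) (abs_sin_le_one _)
  have hsum : X true + X false
      = (n : ℝ)⁻¹ * ∑ i ∈ Sᶜ, cos (ξ * cav β K M g i) - (Sᶜ.card : ℝ) / n * T := by
    simp only [hX, spin, if_pos, Bool.false_eq_true, if_false]
    have h : ∑ i ∈ Sᶜ, (1 + 1 * tanh (cav β K M g i)) / 2 * cos (ξ * cav β K M g i)
        + ∑ i ∈ Sᶜ, (1 + -1 * tanh (cav β K M g i)) / 2 * cos (ξ * cav β K M g i)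
        = ∑ i ∈ Sᶜ, cos (ξ * cav β K M g i) := by
      rw [← sum_add_distrib]; exact sum_congr rfl fun i _ => by ring
    linear_combination (n : ℝ)⁻¹ * h
  rw [← hsum]
  refine (abs_add_le _ _).trans ((add_le_add (key true) (key false)).trans_eq ?_)
  simp only [cosErr, Fintype.sum_bool]
  ring

/-- The empirical law of the cavity fields at the free sites, on an even test. -/
theorem deconv_test (hn : 0 < n) (hβ : β ^ 2 ≤ 1) (hM : Far ν S M)
    (hK : ∀ v : Fin n → ℝ, ∑ i, (K *ᵥ v) i ^ 2 ≤ 9 * ∑ i, v i ^ 2) {G : ℝ → ℝ} (hG : Continuous G)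
    (hb : ∀ x, |G x| ≤ 1) {m : ℕ} {a ξ : Fin m → ℝ} {ε : ℝ} (hε : 0 ≤ ε)
    (h : ∀ x, |G x - cosSum a ξ x| ≤ ε * (1 + x ^ 2)) (g : Conf n) :
    |(n : ℝ)⁻¹ * ∑ i ∈ Sᶜ, G (cav β K M g i)
      - (Sᶜ.card : ℝ) / n * nE (β ^ 2 * qv M g) (β ^ 2 * qv M g) G|
      ≤ 24 * ε + ∑ j, |a j| * cosErr β K S M (ξ j) g := by
  have hn' : (0 : ℝ) < n := by exact_mod_cast hn
  set γ := β ^ 2 * qv M g with hγ
  have hγ0 : 0 ≤ γ := mul_nonneg (sq_nonneg β) (qv_mem hM g).1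
  have hγ1 : γ ≤ 1 := (mul_le_of_le_one_right (sq_nonneg β) (qv_mem hM g).2).trans hβ
  have hu0 : 0 ≤ (Sᶜ.card : ℝ) / n := by positivity
  have hcard : (Sᶜ.card : ℝ) ≤ n := by
    exact_mod_cast (card_le_univ _).trans (Fintype.card_fin n).le
  have hu1 : (Sᶜ.card : ℝ) / n ≤ 1 := (div_le_one hn').2 hcard
  set u := (Sᶜ.card : ℝ) / n
  have h1 : |(n : ℝ)⁻¹ * ∑ i ∈ Sᶜ, G (cav β K M g i)
      - (n : ℝ)⁻¹ * ∑ i ∈ Sᶜ, cosSum a ξ (cav β K M g i)| ≤ 21 * ε := by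
    rw [← mul_sub, ← sum_sub_distrib, abs_mul, abs_of_pos (inv_pos.2 hn'), inv_mul_le_iff₀ hn']
    refine (abs_sum_le_sum_abs _ _).trans ((sum_le_sum fun i _ => h _).trans ?_)
    rw [← mul_sum, sum_add_distrib, sum_const, nsmul_eq_mul, mul_one]
    have hs : ∑ i ∈ Sᶜ, cav β K M g i ^ 2 ≤ 20 * n :=
      (sum_le_sum_of_subset_of_nonneg (subset_univ _) fun i _ _ => sq_nonneg _).trans
        (mean_cav_sq hn hβ hM hK g).2
    linarith [mul_le_mul_of_nonneg_left (add_le_add hcard hs) hε]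
  have h2 : |u * nE γ γ (cosSum a ξ) - u * nE γ γ G| ≤ 3 * ε := by
    rw [← mul_sub, abs_mul, abs_of_nonneg hu0, abs_sub_comm]
    refine (mul_le_of_le_one_left (abs_nonneg _) hu1).trans ((nE_approx hG hb h γ hγ0).trans ?_)
    nlinarith [mul_le_mul hγ1 hγ1 hγ0 zero_le_one]
  have h3 : |(n : ℝ)⁻¹ * ∑ i ∈ Sᶜ, cosSum a ξ (cav β K M g i) - u * nE γ γ (cosSum a ξ)|
      ≤ ∑ j, |a j| * cosErr β K S M (ξ j) g := by
    rw [nE_cosSum a ξ γ hγ0]
    simp only [cosSum]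
    rw [sum_comm, mul_sum, mul_sum, ← sum_sub_distrib]
    refine (abs_sum_le_sum_abs _ _).trans (sum_le_sum fun j _ => ?_)
    rw [← mul_sum, mul_left_comm, mul_left_comm u, ← mul_sub, abs_mul]
    exact mul_le_mul_of_nonneg_left (deconv_cos hβ hM (ξ j) g) (abs_nonneg _)
  refine (abs_sub_le _ ((n : ℝ)⁻¹ * ∑ i ∈ Sᶜ, cosSum a ξ (cav β K M g i)) _).trans
    ((add_le_add h1 ((abs_sub_le _ (u * nE γ γ (cosSum a ξ)) _).trans (add_le_add h3 h2))).trans ?_)
  linarith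

/-- The site entropies at the free sites are at least their value at the fixed point. -/
theorem pin_bound (hn : 0 < n) (hβ : β ^ 2 < 1) (hM : Far ν S M)
    (hK : ∀ v : Fin n → ℝ, ∑ i, (K *ᵥ v) i ^ 2 ≤ 9 * ∑ i, v i ^ 2) {ε Kb : ℝ} (hε : 0 ≤ ε)
    (hKb : ∀ p p' : ℝ, p ∈ Set.Icc (0 : ℝ) 1 → p' ∈ Set.Icc (0 : ℝ) 1 →
      |binEntropy p - binEntropy p'| ≤ ε + Kb * |p - p'|)
    {m₁ : ℕ} {a₁ ξ₁ : Fin m₁ → ℝ} (h₁ : ∀ x, |tanh x ^ 2 - cosSum a₁ ξ₁ x| ≤ ε * (1 + x ^ 2))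
    {m₂ : ℕ} {a₂ ξ₂ : Fin m₂ → ℝ} (h₂ : ∀ x, |siteH x - cosSum a₂ ξ₂ x| ≤ ε * (1 + x ^ 2))
    {qp : ℝ} (hq : IsFix β ((S.card : ℝ) / n) qp) (g : Conf n) :
    (Sᶜ.card : ℝ) / n * hFun (β ^ 2 * qp)
      ≤ (n : ℝ)⁻¹ * (∑ i ∈ Sᶜ, binEntropy ((1 + mag M g i) / 2)) + 25 * ε
        + Kb / 2 * magErr β K S M g + ∑ j, |a₂ j| * cosErr β K S M (ξ₂ j) g
        + (2 * magErr β K S M g + 24 * ε + ∑ j, |a₁ j| * cosErr β K S M (ξ₁ j) g) / (1 - β ^ 2) := by
  have hn' : (0 : ℝ) < n := by exact_mod_cast hn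
  obtain ⟨q0, q1⟩ := qv_mem hM g
  set q := qv M g with hqd
  set u := (Sᶜ.card : ℝ) / n with hu
  have hS : (S.card : ℝ) ≤ n := by exact_mod_cast (card_le_univ _).trans (Fintype.card_fin n).le
  have hc : (Sᶜ.card : ℝ) = n - S.card := by
    rw [card_compl, Fintype.card_fin, Nat.cast_sub ((card_le_univ _).trans (Fintype.card_fin n).le)]
  have hu' : u = 1 - (S.card : ℝ) / n := by rw [hu, hc, sub_div, div_self hn'.ne']
  have hu0 : 0 ≤ u := by positivity
  have hu1 : u ≤ 1 := by rw [hu']; linarith [div_nonneg (Nat.cast_nonneg S.card) hn'.le]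
  set t := fun i => tanh (cav β K M g i) with ht
  have e1 : q = (S.card : ℝ) / n + (n : ℝ)⁻¹ * ∑ i ∈ Sᶜ, mag M g i ^ 2 := by
    rw [hqd, qv, ← sum_add_sum_compl S, mul_add]
    congr 1
    rw [sum_congr rfl fun i hi => by rw [mag_pin hM g hi, vec, pow_two, spin_sq], sum_const,
      nsmul_eq_mul, mul_one, inv_mul_eq_div]
  have e2 : |(n : ℝ)⁻¹ * ∑ i ∈ Sᶜ, mag M g i ^ 2 - (n : ℝ)⁻¹ * ∑ i ∈ Sᶜ, t i ^ 2|
      ≤ 2 * magErr β K S M g := by
    rw [← mul_sub, ← sum_sub_distrib, abs_mul, abs_of_pos (inv_pos.2 hn'), magErr, mul_left_comm, mul_sum]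
    refine mul_le_mul_of_nonneg_left ((abs_sum_le_sum_abs _ _).trans (sum_le_sum fun i _ => ?_))
      (by positivity)
    rw [sq_sub_sq, abs_mul]
    exact mul_le_mul_of_nonneg_right ((abs_add_le _ _).trans
      (by linarith [abs_mag_le hM g i, abs_tanh_lt_one (cav β K M g i)])) (abs_nonneg _)
  have e3 := deconv_test hn hβ.le hM hK (G := fun x => tanh x ^ 2) (continuous_tanh'.pow 2)
    (fun x => by rw [abs_of_nonneg (sq_nonneg _)]; exact tanh_sq_le x) hε h₁ g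
  have hr : |q - ((S.card : ℝ) / n + (1 - (S.card : ℝ) / n) * psi (β ^ 2 * q))|
      ≤ 2 * magErr β K S M g + 24 * ε + ∑ j, |a₁ j| * cosErr β K S M (ξ₁ j) g := by
    rw [← hu', show q - ((S.card : ℝ) / n + u * psi (β ^ 2 * q))
      = (n : ℝ)⁻¹ * ∑ i ∈ Sᶜ, mag M g i ^ 2 - u * psi (β ^ 2 * q) by linear_combination e1]
    refine (abs_sub_le _ _ _).trans ((add_le_add e2 e3).trans ?_)
    linarith
  have hd := fix_stable hβ (by positivity) ((div_le_one hn').2 hS) hq q0 hr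
  have e4 := deconv_test hn hβ.le hM hK continuous_siteH abs_siteH_le hε h₂ g
  have e5 : (n : ℝ)⁻¹ * ∑ i ∈ Sᶜ, siteH (cav β K M g i)
      ≤ (n : ℝ)⁻¹ * (∑ i ∈ Sᶜ, binEntropy ((1 + mag M g i) / 2)) + u * ε + Kb / 2 * magErr β K S M g := by
    rw [magErr, hu, show (Sᶜ.card : ℝ) / n * ε = (n : ℝ)⁻¹ * ∑ _i ∈ Sᶜ, ε by
      rw [sum_const, nsmul_eq_mul]; ring, mul_left_comm (Kb / 2), mul_sum _ _ (Kb / 2), ← mul_add, ← mul_add,
      ← sum_add_distrib, ← sum_add_distrib]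
    refine mul_le_mul_of_nonneg_left (sum_le_sum fun i _ => ?_) (by positivity)
    have hm := abs_le.1 (abs_mag_le hM g i)
    have ht' := abs_lt.1 (abs_tanh_lt_one (cav β K M g i))
    have h := hKb ((1 + tanh (cav β K M g i)) / 2) ((1 + mag M g i) / 2)
      ⟨by linarith [ht'.1], by linarith [ht'.2]⟩ ⟨by linarith [hm.1], by linarith [hm.2]⟩
    rw [show (1 + tanh (cav β K M g i)) / 2 - (1 + mag M g i) / 2
      = (tanh (cav β K M g i) - mag M g i) / 2 by ring, abs_div, abs_two, abs_sub_comm (tanh _)] at h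
    rw [siteH]
    linarith [(abs_le.1 h).2]
  have e6 : u * hFun (β ^ 2 * qp) ≤ u * hFun (β ^ 2 * q)
      + (2 * magErr β K S M g + 24 * ε + ∑ j, |a₁ j| * cosErr β K S M (ξ₁ j) g) / (1 - β ^ 2) := by
    have hl := hFun_lip (mul_nonneg (sq_nonneg β) q0) (mul_nonneg (sq_nonneg β) hq.1)
    rw [← mul_sub, abs_mul, abs_of_nonneg (sq_nonneg β)] at hl
    have h1 : u * |hFun (β ^ 2 * q) - hFun (β ^ 2 * qp)| ≤ |q - qp| :=
      (mul_le_of_le_one_left (abs_nonneg _) hu1).trans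
        (hl.trans (mul_le_of_le_one_left (abs_nonneg _) hβ.le))
    have h2 := mul_le_mul_of_nonneg_left (le_abs_self (hFun (β ^ 2 * qp) - hFun (β ^ 2 * q))) hu0
    rw [abs_sub_comm] at h2
    linarith
  have e7 := (abs_le.1 e4).1
  rw [← hu] at e7
  have e8 : u * ε ≤ ε := mul_le_of_le_one_left hε hu1
  simp only [hFun] at e6 ⊢
  linarith

end Vale.Agent.P150.Fast.Entropy
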