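import Vale.Agent.P150.Fast.Entropy.Pic
import Vale.Agent.P150.Fast.Goe
import Vale.Agent.P150.Fast.FibTens

/-!
The relative entropy against the Gibbs measure as entropy, energy and partition function; the mean
energy from the waves; the diagonal of the coupling matrix is negligible (P150).
-/

open MeasureTheory ProbabilityTheory Real Finset
open scoped Matrix

namespace Vale.Agent.P150.Fast.Entropy

variable {n : ℕ}

/-- The disorder with a free diagonal is no smaller. -/
theorem disorder_le_disX (s : Set (Pair n → ℝ)) :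
    (disorder n).real s ≤ (disX n).real (offd (n := n) ⁻¹' s) := by
  have h := measurePreserving_sumPiEquivProdPi (fun _ : Pair n ⊕ Fin n => gaussianReal 0 1)
  refine le_of_eq ?_
  rw [measureReal_def, measureReal_def]
  congr 1
  calc disorder n s
      = (disorder n) s * (gp (Fin n)) Set.univ := by rw [measure_univ, mul_one]
    _ = ((disorder n).prod (gp (Fin n))) (s ×ˢ Set.univ) := (Measure.prod_prod _ _).symm
    _ = disX n (offd (n := n) ⁻¹' s) := by
      rw [disX, gp]
      refine (h.measure_preimage_equiv (f := MeasurableEquiv.sumPiEquivProdPi fun _ => ℝ) _).symm.trans ?_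
      congr 1
      ext d
      simp only [Set.mem_preimage, Set.mem_prod, Set.mem_univ, and_true]
      rfl

theorem diag_small {β ε δ : ℝ} (hε : 0 < ε) (hδ : 0 < δ) : ∀ᶠ n : ℕ in Filter.atTop,
    (disX n).real {d | ε * n < |β / √n * √2 * ∑ i, d (Sum.inr i)|} ≤ δ := by
  obtain ⟨m, hm⟩ := exists_nat_gt (2 * exp (β ^ 2) / δ / ε)
  filter_upwards [Filter.eventually_ge_atTop (max m 1)] with n hn
  have hn1 : 1 ≤ n := (le_max_right _ _).trans hn
  have hn' : (0 : ℝ) < n := by exact_mod_cast hn1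
  set v : Pair n ⊕ Fin n → ℝ := Sum.elim (fun _ => 0) (fun _ => β / √n * √2) with hv
  have hlin : ∀ d : Dis n, β / √n * √2 * ∑ i, d (Sum.inr i) = lin v d := fun d => by
    simp [lin, hv, Fintype.sum_sum_type, mul_sum, mul_comm]
  have hvs : ∑ i, v i ^ 2 = 2 * β ^ 2 := by
    simp [hv, Fintype.sum_sum_type, mul_pow, div_pow, sq_sqrt hn'.le]
    field_simp
  obtain ⟨hi, he⟩ := cosh_lin v
  rw [hvs, mul_div_cancel_left₀ (β ^ 2) two_ne_zero] at he
  have hmk := mul_meas_ge_le_integral_of_nonneg (μ := gp (Pair n ⊕ Fin n))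
    (ae_of_all _ fun d => (cosh_pos (lin v d)).le) hi (cosh (ε * n))
  rw [he] at hmk
  refine le_trans (measureReal_mono (fun d (hd : ε * n < |β / √n * √2 * ∑ i, d (Sum.inr i)|) => ?_)
    (measure_ne_top (gp (Pair n ⊕ Fin n)) _)) (((le_div_iff₀' (cosh_pos _)).2 hmk).trans ?_)
  · rw [hlin] at hd
    show cosh (ε * n) ≤ cosh (lin v d)
    rw [cosh_le_cosh, abs_of_pos (mul_pos hε hn')]
    exact hd.le
  · rw [div_le_iff₀ (cosh_pos _)]
    have h1 : exp (ε * n) / 2 ≤ cosh (ε * n) := by
      rw [cosh_eq]; linarith [exp_pos (-(ε * n))]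
    have hmn : (m : ℝ) ≤ n := by exact_mod_cast (le_max_left m 1).trans hn
    have h2 := hm.trans_le hmn
    rw [div_lt_iff₀ hε, div_lt_iff₀ hδ] at h2
    nlinarith [add_one_le_exp (ε * n), mul_le_mul_of_nonneg_left h1 hδ.le]

/-- The relative entropy against the Gibbs measure. -/
theorem ent_eq (β : ℝ) (g : Pair n → ℝ) {u : Conf n → ℝ} (hu : ∀ x, 0 < u x)
    (h1 : ∑ x, mu n β g x * u x = 1) :
    Ent.ent (mu n β g) u = ∑ x, mu n β g x * u x * log (mu n β g x * u x)
      - ∑ x, mu n β g x * u x * energy n β g x + log (∑ x, exp (energy n β g x)) := by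
  have hm : Ent.mass (mu n β g) = 1 := mu_sum g
  have havg : Ent.avg (mu n β g) u = 1 := by rw [Ent.avg, hm, div_one, h1]
  have hZ : 0 < ∑ x, exp (energy n β g x) := sum_pos (fun x _ => exp_pos _) univ_nonempty
  have hl : ∀ x, log (mu n β g x * u x)
      = energy n β g x - log (∑ z, exp (energy n β g z)) + log (u x) := fun x => by
    rw [log_mul (mu_pos g x).ne' (hu x).ne', mu, log_div (exp_pos _).ne' hZ.ne', log_exp]
  have e : Ent.ent (mu n β g) u = ∑ x, mu n β g x * u x * log (u x) := by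
    simp only [Ent.ent, havg, Ent.phi, log_one, mul_zero, sub_zero, mul_add, mul_sub, mul_one,
      sum_add_distrib, sum_sub_distrib, h1, mu_sum, sub_add_cancel, ← mul_assoc]
  rw [e]
  simp only [hl, mul_add, mul_sub, sum_add_distrib, sum_sub_distrib, ← sum_mul, h1, one_mul]
  ring

theorem entSite_scale {W f : Conf n → ℝ} (hW : ∀ x, 0 < W x) (hf : ∀ x, 0 < f x) {a : ℝ} (ha : 0 < a)
    (i : Fin n) : Ent.entSite (fun x => a * W x) (fun x => f x / a) i = Ent.entSite W f i := by
  have hp : ∀ x, Ent.pairAvg (fun x => a * W x) (fun x => f x / a) i x = Ent.pairAvg W f i x / a := by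
    intro x
    simp only [Ent.pairAvg]
    have := (add_pos (hW x) (hW (flipAt x i))).ne'
    field_simp
  simp only [Ent.entSite, hp]
  refine sum_congr rfl fun x _ => ?_
  simp only [Ent.phi, log_div (hf x).ne' ha.ne', log_div (Ent.pairAvg_pos hW hf i x).ne' ha.ne']
  field_simp
  ring

theorem qform_aop_vec (β : ℝ) (d : Dis n) (x : Conf n) :
    Ent.qform (aop n β d) (vec x) = Ent.qform (kmat n β d) (vec x) + shift β * n := by
  have hv : vec x ⬝ᵥ vec x = n := by simp [dotProduct, vec, spin_sq]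
  rw [qform_eq_dot, qform_eq_dot, aop, Matrix.add_mulVec, dotProduct_add, Matrix.smul_mulVec,
    Matrix.one_mulVec, dotProduct_smul, smul_eq_mul, hv]

/-- At zero field the cost of a step is at most the single-site entropy against the Gibbs measure. -/
theorem freeD_le_entTot (β : ℝ) (d : Dis n) {u : Conf n → ℝ} (hu : ∀ x, 0 < u x) (S : Finset (Fin n)) :
    freeD (fun x => mu n β (offd d) x * u x) ⟨aop n β d, 0, S⟩ ≤ Ent.entTot (mu n β (offd d)) u := by
  have hZ : 0 < ∑ x, exp (energy n β (offd d) x) := sum_pos (fun x _ => exp_pos _) univ_nonempty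
  set a := exp ((β / √n * √2 * ∑ i, d (Sum.inr i) + shift β * n) / 2)
    * ∑ x, exp (energy n β (offd d) x) with ha
  have ha0 : 0 < a := mul_pos (exp_pos _) hZ
  have hW : Ent.coupW (aop n β d) 0 = fun x => a * mu n β (offd d) x := by
    funext x
    show exp (Ent.qform (aop n β d) (vec x) / 2 + _) = _
    rw [qform_aop_vec, qform_kmat_vec, ha, mu, mul_assoc (exp _), mul_div_cancel₀ _ hZ.ne', ← exp_add]
    simp [Ent.lin]
    ring
  have hf : (fun z => mu n β (offd d) z * u z / Ent.coupW (aop n β d) 0 z) = fun z => u z / a := by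
    funext z
    rw [hW]
    field_simp [(mu_pos (β := β) (offd d) z).ne']
  simp only [freeD, hf]
  rw [hW]
  simp only [entSite_scale (mu_pos (β := β) (offd d)) hu ha0]
  exact sum_le_sum_of_subset_of_nonneg (subset_univ _) fun i _ _ =>
    Ent.entSite_nonneg (mu_pos (β := β) (offd d)) hu i

variable {ν : Conf n → ℝ} {K : Matrix (Fin n) (Fin n) ℝ} {β : ℝ}

/-- The mean quadratic form from the mean waves. -/
theorem qform_mean (hn : 0 < n) (hβ : β ^ 2 ≤ 1) (hν : ∀ x, 0 ≤ ν x) (h1 : ∑ x, ν x = 1)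
    (hK : ∀ v : Fin n → ℝ, ∑ i, (K *ᵥ v) i ^ 2 ≤ 9 * ∑ i, v i ^ 2) {ξ e : ℝ} (hξ : 0 < ξ)
    (hξ1 : ξ ≤ 1)
    (h : ∀ b, ∑ x, ν x * |setWave K univ ξ false b x - target ξ false b 0 (β ^ 2) / 2| ≤ e) :
    (n : ℝ) * (β ^ 2 - 11 * ξ - 2 * e / ξ) ≤ ∑ x, ν x * Ent.qform K (vec x) := by
  have hn' : (0 : ℝ) < n := by exact_mod_cast hn
  set D := fun x => setWave K univ ξ false true x - setWave K univ ξ false false x with hD
  have hpt : ∀ x, n * (D x / ξ - 9 * ξ) ≤ Ent.qform K (vec x) := by
    intro x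
    set z := K *ᵥ vec x with hz
    have e1 : ∀ i, vec x i * sin (ξ * z i) / ξ - ξ * z i ^ 2 ≤ vec x i * z i := fun i => by
      have h := sin_sub_self_le (ξ * z i)
      have hv : |vec x i| = 1 := abs_spin _
      have h2 : vec x i * sin (ξ * z i) - ξ * (vec x i * z i) ≤ (ξ * z i) ^ 2 := by
        refine (le_abs_self _).trans (le_trans (le_of_eq ?_) h)
        rw [show vec x i * sin (ξ * z i) - ξ * (vec x i * z i) = vec x i * (sin (ξ * z i) - ξ * z i) by ring,
          abs_mul, hv, one_mul]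
      rw [sub_le_iff_le_add, div_le_iff₀ hξ]
      linarith
    have e2 : Ent.qform K (vec x) = ∑ i, vec x i * z i := by rw [qform_eq_dot]; rfl
    have e3 : n * D x = ∑ i, vec x i * sin (ξ * z i) := by
      simp only [hD, setWave, ← mul_sub, ← mul_assoc, mul_inv_cancel₀ hn'.ne', one_mul, ← sum_sub_distrib]
      refine sum_congr rfl fun i _ => ?_
      rcases Bool.eq_false_or_eq_true (x i) with hb | hb <;> simp [siteWave, phase, vec, spin, hb, hz]
    have e4 : ∑ i, z i ^ 2 ≤ 9 * n := by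
      refine (hK (vec x)).trans (le_of_eq ?_)
      simp [vec, pow_two, spin_sq]
    have := sum_le_sum (s := univ) fun i _ => e1 i
    rw [sum_sub_distrib, ← sum_div, ← e3, ← mul_sum] at this
    rw [e2, mul_sub, ← mul_div_assoc]
    linarith [mul_le_mul_of_nonneg_left e4 hξ.le]
  have hD' : ξ * (β ^ 2 - 2 * ξ) - 2 * e ≤ ∑ x, ν x * D x := by
    have hb : ∀ b, |∑ x, ν x * setWave K univ ξ false b x - target ξ false b 0 (β ^ 2) / 2| ≤ e := by
      intro b
      refine le_trans ?_ (h b)
      conv_lhs => rw [← one_mul (target ξ false b 0 (β ^ 2) / 2), ← h1, sum_mul, ← sum_sub_distrib]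
      refine (abs_sum_le_sum_abs _ _).trans (le_of_eq (sum_congr rfl fun x _ => ?_))
      rw [← mul_sub, abs_mul, abs_of_nonneg (hν x)]
    have ht : ξ * (β ^ 2 - 2 * ξ) ≤ target ξ false true 0 (β ^ 2) / 2 - target ξ false false 0 (β ^ 2) / 2 := by
      simp only [target, phase, spin, Bool.false_eq_true, if_false, if_true, zero_add, one_mul, add_zero,
        neg_mul, mul_neg, sin_neg]
      set b := β ^ 2 with hb2
      have hb0 : 0 ≤ b := sq_nonneg β
      have hs := (abs_le.1 (sin_sub_self_le (ξ * b))).1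
      have he := add_one_le_exp (-(ξ ^ 2 * b) / 2)
      have he1 : exp (-(ξ ^ 2 * b) / 2) ≤ 1 := exp_le_one_iff.2 (by linarith [mul_nonneg (sq_nonneg ξ) hb0])
      have hbb : (ξ * b) ^ 2 ≤ ξ ^ 2 := by
        rw [mul_pow]; exact mul_le_of_le_one_right (sq_nonneg ξ) (pow_le_one₀ hb0 hβ)
      have h0 : exp (-(ξ ^ 2 * b) / 2) * (ξ * b - ξ ^ 2) ≤ exp (-(ξ ^ 2 * b) / 2) * sin (ξ * b) :=
        mul_le_mul_of_nonneg_left (by linarith) (exp_pos _).le
      rcases le_total (ξ * b - ξ ^ 2) 0 with hc | hc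
      · have := mul_le_mul_of_nonpos_right he1 hc
        linarith [mul_nonneg hξ.le hξ.le]
      · have := mul_le_mul_of_nonneg_right he hc
        nlinarith [mul_nonneg hξ.le hb0, mul_le_of_le_one_right (sq_nonneg ξ) hβ,
          mul_le_of_le_one_left (sq_nonneg ξ) hξ1]
    have a1 := abs_le.1 (hb true)
    have a2 := abs_le.1 (hb false)
    simp only [hD, mul_sub, sum_sub_distrib]
    linarith [a1.1, a2.2]
  refine le_trans ?_ (sum_le_sum fun x _ => mul_le_mul_of_nonneg_left (hpt x) (hν x))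
  have e5 : ∑ x, ν x * (n * (D x / ξ - 9 * ξ)) = n * ((∑ x, ν x * D x) / ξ - 9 * ξ) := by
    have : ∀ x, ν x * (n * (D x / ξ - 9 * ξ)) = n * (ν x * D x / ξ) - n * (9 * ξ) * ν x := fun x => by
      ring
    simp only [this, sum_sub_distrib, ← mul_sum, ← sum_div, h1]
    ring
  rw [e5]
  refine mul_le_mul_of_nonneg_left ?_ hn'.le
  have := div_le_div_of_nonneg_right hD' hξ.le
  rw [sub_div, mul_div_cancel_left₀ _ hξ.ne'] at this
  linarith
where
  sin_sub_self_le (t : ℝ) : |sin t - t| ≤ t ^ 2 := by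
    have h := Convex.norm_image_sub_le_of_norm_hasDerivWithin_le (C := |t|) (s := Set.uIcc 0 t)
      (f := fun u => sin u - u) (f' := fun u => cos u - 1)
      (fun u _ => ((hasDerivAt_sin u).sub (hasDerivAt_id' u)).hasDerivWithinAt) (fun u hu => ?_)
      (convex_uIcc 0 t) Set.left_mem_uIcc Set.right_mem_uIcc
    · simpa [Real.norm_eq_abs, ← sq_abs t, pow_two] using h
    · have h1 := lipschitzWith_cos.dist_le_mul u 0
      simp only [Real.dist_eq, cos_zero, sub_zero, NNReal.coe_one, one_mul] at h1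
      rw [Real.norm_eq_abs]
      refine h1.trans ?_
      simpa using Set.abs_sub_left_of_mem_uIcc hu

end Vale.Agent.P150.Fast.Entropy
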