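import Vale.Agent.P150.Fast.Entropy.Bound
import Vale.Agent.P150.Fast.Entropy.Energy
import Vale.Agent.P150.Fast.Entropy.NormFacts
import Vale.Agent.P150.Fast.ChainKer
import Vale.Agent.P150.Fast.ChainPath
import Vale.Agent.P150.Fast.CurvChain
import Vale.Agent.P150.Fast.GoeNorm
import Vale.Agent.P150.Fast.GoeZ

/-!
The first half of fast mixing below the transition (P150): a law with small total single-site
entropy has small entropy, from the cavity picture and the zero-field comparison.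
-/

open MeasureTheory ProbabilityTheory Real Finset Filter
open scoped Matrix

namespace Vale.Agent.P150.Fast.Entropy

variable {n : ℕ}

theorem eventually_exp_le {c δ : ℝ} (hc : 0 < c) (hδ : 0 < δ) :
    ∀ᶠ n : ℕ in atTop, exp (-(c * n)) ≤ δ := by
  obtain ⟨m, hm⟩ := exists_nat_gt (1 / δ / c)
  filter_upwards [eventually_ge_atTop m] with n hn
  rw [exp_neg, inv_le_comm₀ (exp_pos _) hδ]
  have h : (1 / δ / c) < n := hm.trans_le (by exact_mod_cast hn)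
  rw [div_lt_iff₀ hc, one_div] at h
  linarith [add_one_le_exp (c * n)]

theorem eventually_ge_real (x : ℝ) : ∀ᶠ n : ℕ in atTop, x ≤ n := by
  obtain ⟨m, hm⟩ := exists_nat_ge x
  filter_upwards [eventually_ge_atTop m] with n hn
  exact hm.trans (by exact_mod_cast hn)

/-- The parameters that do not depend on the pins. -/
structure Par (β ε₀ : ℝ) where
  /-- The waves. -/
  Ξ : Finset ℝ
  /-- The wave of the energy. -/
  ξe : ℝ
  /-- The error allowed to every mean wave. -/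
  e : ℝ
  e_pos : 0 < e
  ξe_mem : ξe ∈ Ξ
  ξe_pos : 0 < ξe
  ξe_one : ξe ≤ 1
  energy : 11 * ξe + 2 * e / ξe ≤ ε₀ / 5
  entropy : ∀ (n : ℕ) (K : Matrix (Fin n) (Fin n) ℝ) (ν : Conf n → ℝ) (θ : ℝ), 0 < n →
    1 ≤ min ε₀ 1 / 20 * n → (∀ x, 0 < ν x) → ∑ x, ν x = 1 →
    (∀ v : Fin n → ℝ, ∑ i, (K *ᵥ v) i ^ 2 ≤ 9 * ∑ i, v i ^ 2) → θ ≤ e →
    (∀ S : Finset (Fin n), ∃ M, Pic β K ν S M θ Ξ) →
    (∀ (U : Finset (Fin n)), ∀ ξ ∈ Ξ, ∀ c b,
      ∑ x, ν x * |setWave K U ξ c b x - (U.card : ℝ) / n * (target ξ c b 0 (β ^ 2) / 2)| ≤ e) →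
    (n : ℝ) * (log 2 - β ^ 2 / 4 - ε₀ / 5) ≤ -∑ x, ν x * log (ν x)

theorem exists_par {β ε₀ : ℝ} (hβ : β ^ 2 < 1) (hε₀ : 0 < ε₀) : Nonempty (Par β ε₀) := by
  classical
  set ε₂ := min ε₀ 1 / 20 with hε₂
  have hε₂0 : 0 < ε₂ := div_pos (lt_min hε₀ one_pos) (by norm_num)
  have hε₂1 : ε₂ ≤ ε₀ / 20 := div_le_div_of_nonneg_right (min_le_left _ _) (by norm_num)
  set τ := ε₀ * ε₂ / 20 with hτ
  have hτ0 : 0 < τ := by positivity
  have hc : 0 < 1 - β ^ 2 := by linarith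
  set ε₁ := τ * (1 - β ^ 2) / 200 with hε₁
  have hε₁0 : 0 < ε₁ := by positivity
  obtain ⟨Kb, hKb0, hKb⟩ := binEnt_modulus hε₁0
  obtain ⟨m₁, a₁, ξ₁, h₁⟩ := exists_cos_approx (G := fun x => tanh x ^ 2) (continuous_tanh'.pow 2)
    (fun x => by simp [tanh_neg]) (fun x => by rw [abs_of_nonneg (sq_nonneg _)]; exact tanh_sq_le x) hε₁0
  obtain ⟨m₂, a₂, ξ₂, h₂⟩ := exists_cos_approx continuous_siteH siteH_neg abs_siteH_le hε₁0
  set ξe := min 1 (ε₀ / 200) with hξe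
  have hξe0 : 0 < ξe := lt_min one_pos (by positivity)
  have hξe1 : ξe ≤ ε₀ / 200 := min_le_right _ _
  set Ξ := insert ξe (univ.image ξ₁ ∪ univ.image ξ₂) with hΞ
  set W := Kb / 2 + ∑ j, |a₂ j| * cw (ξ₂ j) + (2 + ∑ j, |a₁ j| * cw (ξ₁ j)) / (1 - β ^ 2) with hW
  have hcw : ∀ x, 0 ≤ cw x := fun x => by unfold cw; positivity
  have hs1 : 0 ≤ ∑ j, |a₁ j| * cw (ξ₁ j) := sum_nonneg fun j _ => mul_nonneg (abs_nonneg _) (hcw _)
  have hs2 : 0 ≤ ∑ j, |a₂ j| * cw (ξ₂ j) := sum_nonneg fun j _ => mul_nonneg (abs_nonneg _) (hcw _)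
  have hW0 : 0 ≤ W := by positivity
  set e := min (τ / (4 * (W + 1))) (ξe * ε₀ / 40) with he
  have he0 : 0 < e := lt_min (by positivity) (by positivity)
  refine ⟨⟨Ξ, ξe, e, he0, mem_insert_self _ _, hξe0, min_le_left _ _, ?_, ?_⟩⟩
  · have h : 2 * e / ξe ≤ ε₀ / 20 := by
      rw [div_le_iff₀ hξe0]; linarith [min_le_right (τ / (4 * (W + 1))) (ξe * ε₀ / 40)]
    linarith
  · intro n K ν θ hn hbig hν h1 hK hθ hP hw
    have hb : 25 * ε₁ + 24 * ε₁ / (1 - β ^ 2) + (θ + e) * W ≤ τ := by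
      have e1 : 24 * ε₁ / (1 - β ^ 2) = 24 * τ / 200 := by rw [hε₁]; field_simp
      have e2 : ε₁ ≤ τ / 200 := div_le_div_of_nonneg_right
        (mul_le_of_le_one_right hτ0.le (by linarith [sq_nonneg β])) (by norm_num)
      have h3 : e * W ≤ τ / 4 := by
        have := mul_le_mul_of_nonneg_right (min_le_left (τ / (4 * (W + 1))) (ξe * ε₀ / 40)) hW0
        refine this.trans ?_
        rw [div_mul_eq_mul_div, div_le_div_iff₀ (by positivity) (by norm_num)]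
        linarith
      linarith [mul_le_mul_of_nonneg_right hθ hW0]
    have h := entropy_lower hn hβ hν h1 hK hP hw he0.le hε₁0.le hKb0 hKb h₁
      (fun j => mem_insert_of_mem (mem_union_left _ (mem_image_of_mem _ (mem_univ j)))) h₂
      (fun j => mem_insert_of_mem (mem_union_right _ (mem_image_of_mem _ (mem_univ j))))
      hε₂0 hbig (τ := τ) hb
    have ht : τ / ε₂ = ε₀ / 20 := by rw [hτ]; field_simp
    refine le_trans (mul_le_mul_of_nonneg_left ?_ (Nat.cast_nonneg n)) h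
    linarith

/-- The error of a mean wave within the budget. -/
theorem wave_budget {e B Pξ a τ₀ κ θ₁ C Cξ l η : ℝ} {T : ℕ} (he : 0 < e) (hB : 0 < B) (hPB : Pξ ≤ B)
    (hκ : 0 < κ) (hC : 0 ≤ C) (hCξ : Cξ ≤ C) (ha : a = min 1 (e / (8 * B)))
    (hτ : τ₀ = e * a / (104 * B)) (hθ0 : 0 ≤ θ₁) (hθ : θ₁ ≤ e / 8) (hθτ : θ₁ ≤ τ₀ * κ ^ 2 / 200)
    (hl : l = e / (16 * (C + 1))) (hη : η ≤ e * l / (16 * (T + 1))) {N : ℝ} (hN : 0 < N)
    (hlog : 16 * log 2 / (e * l) ≤ N) :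
    2 * (T * η / l + log 2 / (l * N) + Cξ * l)
      + (θ₁ + Pξ * (a + (12 / a + 1) * (τ₀ + 200 / κ ^ 2 * θ₁))) ≤ e := by
  have hl0 : 0 < l := by rw [hl]; positivity
  have ha0 : 0 < a := by rw [ha]; exact lt_min one_pos (by positivity)
  have ha1 : a ≤ 1 := by rw [ha]; exact min_le_left _ _
  have ha2 : a ≤ e / (8 * B) := by rw [ha]; exact min_le_right _ _
  have t1 : T * η / l ≤ e / 16 := by
    rw [div_le_iff₀ hl0]
    refine (mul_le_mul_of_nonneg_left hη (Nat.cast_nonneg T)).trans ?_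
    rw [mul_div_assoc', div_le_iff₀ (by positivity)]
    linarith [mul_nonneg he.le hl0.le]
  have t2 : log 2 / (l * N) ≤ e / 16 := by
    rw [div_le_iff₀ (by positivity)]
    rw [div_le_iff₀ (by positivity)] at hlog
    linarith
  have t3 : Cξ * l ≤ e / 16 := by
    refine (mul_le_mul_of_nonneg_right hCξ hl0.le).trans ?_
    rw [hl, mul_div_assoc', div_le_iff₀ (by positivity)]
    linarith
  have t4 : 200 / κ ^ 2 * θ₁ ≤ τ₀ := by
    rw [div_mul_eq_mul_div, div_le_iff₀ (by positivity)]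
    linarith
  have t5 : 12 / a + 1 ≤ 13 / a := by
    rw [show (13 : ℝ) / a = 12 / a + 1 / a by ring]
    exact add_le_add le_rfl ((one_le_div ha0).2 ha1)
  have t6 : Pξ * (a + (12 / a + 1) * (τ₀ + 200 / κ ^ 2 * θ₁)) ≤ B * (e / (8 * B) + 13 / a * (2 * τ₀)) :=
    mul_le_mul hPB (add_le_add ha2 (mul_le_mul t5 (by linarith) (add_nonneg (by rw [hτ]; positivity)
      (by positivity)) (by positivity))) (add_nonneg ha0.le (mul_nonneg (by positivity)
      (add_nonneg (by rw [hτ]; positivity) (by positivity)))) hB.le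
  have t7 : B * (e / (8 * B) + 13 / a * (2 * τ₀)) = e * 3 / 8 := by
    rw [hτ]; field_simp; ring
  linarith

/-- The relative entropy from the entropy, the energy and the partition function. -/
theorem final_bound {β ε₀ : ℝ} (hn : 0 < n) (hβ : β ^ 2 < 1) (P : Par β ε₀) (d : Dis n)
    {u : Conf n → ℝ} (hu : ∀ x, 0 < u x) (h1 : ∑ x, mu n β (offd d) x * u x = 1)
    (hK9 : ∀ v : Fin n → ℝ, ∑ i, (kmat n β d *ᵥ v) i ^ 2 ≤ 9 * ∑ i, v i ^ 2) {θ₁ : ℝ} (hθ : θ₁ ≤ P.e)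
    (hbig : 1 ≤ min ε₀ 1 / 20 * n)
    (hpic : ∀ S : Finset (Fin n),
      ∃ M, Pic β (kmat n β d) (fun x => mu n β (offd d) x * u x) S M θ₁ P.Ξ)
    (hwave : ∀ (U : Finset (Fin n)), ∀ ξ ∈ P.Ξ, ∀ c b, ∑ x, mu n β (offd d) x * u x
      * |setWave (kmat n β d) U ξ c b x - (U.card : ℝ) / n * (target ξ c b 0 (β ^ 2) / 2)| ≤ P.e)
    (g4 : |β / √n * √2 * ∑ i, d (Sum.inr i)| ≤ ε₀ / 20 * n)
    (g5 : log (∑ x, exp (energy n β (offd d) x)) < annLogZ n β + ε₀ / 20 * n) :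
    Ent.ent (mu n β (offd d)) u ≤ ε₀ * n := by
  have hn' : (0 : ℝ) < n := by exact_mod_cast hn
  set ν := fun x => mu n β (offd d) x * u x with hν
  have hν0 : ∀ x, 0 < ν x := fun x => mul_pos (mu_pos _ x) (hu x)
  have hH := P.entropy n _ ν θ₁ hn hbig hν0 h1 hK9 hθ hpic hwave
  have hE : (n : ℝ) * (β ^ 2 - 11 * P.ξe - 2 * P.e / P.ξe)
      ≤ ∑ x, ν x * Ent.qform (kmat n β d) (vec x) := by
    refine qform_mean hn hβ.le (fun x => (hν0 x).le) h1 hK9 P.ξe_pos P.ξe_one fun b => ?_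
    have h := hwave univ P.ξe P.ξe_mem false b
    rwa [card_univ, Fintype.card_fin, div_self hn'.ne', one_mul] at h
  have hq : ∑ x, ν x * Ent.qform (kmat n β d) (vec x)
      = 2 * ∑ x, ν x * energy n β (offd d) x + β / √n * √2 * ∑ i, d (Sum.inr i) := by
    simp only [qform_kmat_vec, mul_add, sum_add_distrib, ← sum_mul]
    rw [show ∑ x, ν x = 1 from h1, one_mul]
    refine congrArg₂ (· + ·) ?_ rfl
    rw [mul_sum]
    exact sum_congr rfl fun x _ => by ring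
  rw [ent_eq β (offd d) hu h1]
  have hen := mul_le_mul_of_nonneg_left P.energy hn'.le
  rw [hq] at hE
  unfold annLogZ at g5
  have h4 := (abs_le.1 g4).2
  have h6 := (abs_nonneg _).trans g4
  simp only [hν] at hH hE
  linarith [sq_nonneg β]

/-- A law with small single-site entropy has small entropy, from the cavity picture. -/
theorem phaseOne {β : ℝ} (hβ0 : 0 ≤ β) (hβ1 : β < 1) (hC : CavityStmt β) (hS : SFZero β) :
    PhaseOne β := by
  classical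
  intro ε₀ hε₀
  have hβ : β ^ 2 < 1 := by nlinarith
  obtain ⟨P⟩ := exists_par (β := β) hβ hε₀
  set e := P.e with he
  have he0 : 0 < e := P.e_pos
  set B := 1 + ∑ ξ ∈ P.Ξ, (1 + |ξ| + ξ ^ 2) with hB
  have hB1 : 1 ≤ B := le_add_of_nonneg_right (sum_nonneg fun ξ _ => by positivity)
  have hB0 : 0 < B := one_pos.trans_le hB1
  have hBξ : ∀ ξ ∈ P.Ξ, 1 + |ξ| + ξ ^ 2 ≤ B := fun ξ hξ =>
    (single_le_sum (f := fun ξ : ℝ => 1 + |ξ| + ξ ^ 2) (fun x _ => by positivity) hξ).trans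
      (le_add_of_nonneg_left zero_le_one)
  set a := min 1 (e / (8 * B)) with ha
  have ha0 : 0 < a := lt_min one_pos (by positivity)
  set τ₀ := e * a / (104 * B) with hτ₀
  have hτ₀0 : 0 < τ₀ := by positivity
  obtain ⟨κ, cS, hκ, hcS, hSev⟩ := hS τ₀ hτ₀0
  set κ₁ := min κ 1 with hκ₁
  have hκ₁0 : 0 < κ₁ := lt_min hκ one_pos
  set θ₁ := min (e / 8) (τ₀ * κ₁ ^ 2 / 200) with hθ₁
  have hθ₁0 : 0 < θ₁ := lt_min (by positivity) (by positivity)
  set θ := θ₁ / B with hθ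
  have hθ0 : 0 < θ := by positivity
  have hBθ : B * θ = θ₁ := by rw [hθ]; field_simp
  obtain ⟨η₀, Tmax, hη₀, hCev⟩ := hC θ hθ0 (waveTests P.Ξ) (waveTests_isTest P.Ξ)
  set C := mgfC 6 * curvC 6 ^ Tmax * ∑ ξ ∈ P.Ξ, waveC ξ with hCdef
  have hmg : 0 ≤ mgfC 6 := by unfold mgfC; norm_num
  have hpw : 0 ≤ curvC 6 ^ Tmax := pow_nonneg (zero_le_one.trans (curvC_one_le (by norm_num))) _
  have hC0 : 0 ≤ C := mul_nonneg (mul_nonneg hmg hpw) (sum_nonneg fun ξ _ => waveC_nonneg ξ)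
  set l := e / (16 * (C + 1)) with hl
  have hl0 : 0 < l := by positivity
  set η := min η₀ (e * l / (16 * (Tmax + 1))) with hη
  have hη0 : 0 < η := lt_min hη₀ (by positivity)
  refine ⟨η, hη0, fun δ hδ => ?_⟩
  obtain ⟨cN, hcN, hNev⟩ := normEvent β (1 / 2) hβ0 (by norm_num)
  have hδ5 : 0 < δ / 5 := by positivity
  have hε20 : 0 < min ε₀ 1 / 20 := div_pos (lt_min hε₀ one_pos) (by norm_num)
  filter_upwards [hNev, hSev, hCev (δ / 5) hδ5,
    diag_small (β := β) (show 0 < ε₀ / 20 by positivity) hδ5, eventually_exp_le hcN hδ5,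
    eventually_exp_le hcS hδ5, eventually_exp_le (show 0 < ε₀ / 20 by positivity) hδ5,
    eventually_ge_real (1 / (min ε₀ 1 / 20)), eventually_ge_real (16 * log 2 / (e * l)),
    eventually_ge_atTop 1] with n hN hSn hCall hDn hx1 hx2 hx3 hbig hlogn hn1
  have hCn := hCall
  have hn : 0 < n := hn1
  have hn' : (0 : ℝ) < n := by exact_mod_cast hn
  rw [div_le_iff₀' hε20] at hbig
  set N1 : Set (Dis n) := {d | ¬ ∀ v, |Ent.qform (kmat n β d) v| ≤ (2 * β + 1 / 2) * ∑ i, v i ^ 2}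
  set N2 : Set (Dis n) := {d | ¬ ∀ m : Fin n → ℝ, (∀ i, |m i| ≤ 1) → τ₀ * n ≤ ∑ i, m i ^ 2 →
      Ent.qform (kmat n β d) m + κ * n
        ≤ ∑ i, satS (m i) + β ^ 2 * (1 - qn m) * ∑ i, m i ^ 2}
  set N3 : Set (Dis n) := {d | ¬ ∀ (ν : Conf n → ℝ) (S : Finset (Fin n)), (∀ x, 0 < ν x) →
        ∑ x, ν x = 1 →
        fieldE 0 ν (fun h => freeD (priorAt (aop n β d) 0 ν h) ⟨aop n β d, h, S⟩) ≤ η₀ * n →
        ∃ T ≤ Tmax, fieldE 0 ν (fun h => cavErr β d 0 ν h S T (waveTests P.Ξ)) ≤ θ}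
  set N4 : Set (Dis n) := {d | ε₀ / 20 * n < |β / √n * √2 * ∑ i, d (Sum.inr i)|}
  set Z : Set (Pair n → ℝ) := {g | annLogZ n β + ε₀ / 20 * n ≤ log (∑ x, exp (energy n β g x))}
  set N5 : Set (Dis n) := offd (n := n) ⁻¹' Z
  have h5 : (disX n).real N5 ≤ δ / 5 := by
    have hm : MeasurableSet Z := measurableSet_le measurable_const (by unfold energy; fun_prop)
    rw [measureReal_def, (mp_offd n).measure_preimage hm.nullMeasurableSet, ← measureReal_def]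
    exact (zUpper n β (ε₀ / 20)).trans hx3
  refine (disorder_le_disX _).trans (le_trans (measureReal_mono
    (s₂ := N1 ∪ N2 ∪ N3 ∪ N4 ∪ N5) (fun d hd => ?_) (measure_ne_top _ _)) ?_)
  swap
  · linarith [measureReal_union_le (μ := disX n) (N1 ∪ N2 ∪ N3 ∪ N4) N5,
      measureReal_union_le (μ := disX n) (N1 ∪ N2 ∪ N3) N4,
      measureReal_union_le (μ := disX n) (N1 ∪ N2) N3, measureReal_union_le (μ := disX n) N1 N2,
      hN.trans hx1, hSn.trans hx2]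
  by_contra hnot
  simp only [Set.mem_union, not_or] at hnot
  obtain ⟨⟨⟨⟨g1, g2⟩, g3⟩, g4⟩, g5⟩ := hnot
  simp only [N1, N2, N3, N4, N5, Z, Set.mem_preimage, Set.mem_ofPred_eq, not_not, not_le, not_lt]
    at g1 g2 g3 g4 g5 hd
  refine hd fun u hu h1 hsmall => ?_
  set g := offd d with hg
  set K := kmat n β d with hK
  set ν := fun x => mu n β g x * u x with hν
  have hν0 : ∀ x, 0 < ν x := fun x => mul_pos (mu_pos g x) (hu x)
  obtain ⟨hA, hAup, hK9⟩ := norm_facts hβ0 hβ1 g1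
  have hfree : ∀ S : Finset (Fin n), freeD ν ⟨aop n β d, 0, S⟩ ≤ η * n := fun S =>
    (freeD_le_entTot β d hu S).trans hsmall
  have hpic : ∀ S : Finset (Fin n), ∃ M T, T ≤ Tmax ∧
      (∀ f x, powOp (kerOf (pR ν) ⟨aop n β d, 0, S⟩) T f x = av M f x) ∧
      Pic β K ν S M θ₁ P.Ξ := by
    intro S
    obtain ⟨T, hT, hc⟩ := g3 ν S hν0 h1 (by
      rw [fieldE_zero h1, priorAt_zero _ h1]
      exact (hfree S).trans (mul_le_mul_of_nonneg_right (min_le_left _ _) hn'.le))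
    obtain ⟨M, hM, hP⟩ := pic_of_cav kerThm hν0 h1 hβ.le hA (B := B)
      (fun ξ hξ => le_trans (le_add_of_nonneg_right (sq_nonneg ξ)) (hBξ ξ hξ)) hB1 hc
    exact ⟨M, T, hT, hM, hBθ ▸ hP⟩
  have hwave : ∀ (U : Finset (Fin n)), ∀ ξ ∈ P.Ξ, ∀ c b,
      ∑ x, ν x * |setWave K U ξ c b x - (U.card : ℝ) / n * (target ξ c b 0 (β ^ 2) / 2)| ≤ e := by
    intro U ξ hξ c b
    obtain ⟨M, T, hT, hM, hP⟩ := hpic ∅
    refine (waves_small kerThm pathVar pathEnd curvTail hn hβ.le hν0 h1 (kmat_isSymm β d) hK9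
      (s := ⟨aop n β d, 0, ∅⟩) (L := 6) (by norm_num) ⟨hA, hAup⟩ (hfree ∅) hT hM hP hτ₀0.le hκ₁0
      (min_le_right _ _) (fun m hm hq => le_trans
        (add_le_add le_rfl (mul_le_mul_of_nonneg_right (min_le_left _ _) hn'.le)) (g2 m hm hq))
      hη0.le ha0 hl0 U hξ c b).trans ?_
    exact wave_budget he0 hB0 (hBξ ξ hξ) hκ₁0 hC0
      (mul_le_mul_of_nonneg_left (single_le_sum (fun x _ => waveC_nonneg x) hξ) (mul_nonneg hmg hpw))
      ha hτ₀ hθ₁0.le (min_le_left _ _) (min_le_right _ _) hl (min_le_right _ _) hn' hlogn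
  refine final_bound hn hβ P d hu h1 hK9 ((min_le_left _ _).trans (by linarith)) hbig
    (fun S => (hpic S).imp fun M ⟨T, _, _, h⟩ => h) hwave g4 g5

end Vale.Agent.P150.Fast.Entropy
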