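import Vale.Agent.P150.Fast.Entropy.Scalar
import Vale.Agent.P150.Fast.Cavity.Stmt
import Vale.Agent.P150.Fast.SFZero

/-!
The far picture of P150 as finite data: a kernel that is stationary for the law and keeps the
pinned spins, the cavity field it defines, and what the cavity picture says at zero pinning.
-/

open MeasureTheory ProbabilityTheory Real Finset
open scoped Matrix

namespace Vale.Agent.P150.Fast.Entropy

variable {n : ℕ}

/-- The mean of `f` seen from `g`. -/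
def av (M : Conf n → Conf n → ℝ) (f : Conf n → ℝ) (g : Conf n) : ℝ := ∑ z, M g z * f z

/-- A stationary stochastic kernel that keeps the pinned spins. -/
structure Far (ν : Conf n → ℝ) (S : Finset (Fin n)) (M : Conf n → Conf n → ℝ) : Prop where
  nn : ∀ g z, 0 ≤ M g z
  row : ∀ g, ∑ z, M g z = 1
  stat : ∀ f, ∑ g, ν g * av M f g = ∑ g, ν g * f g
  supp : ∀ g z, z ∉ fib S g → M g z = 0

/-- The magnetisation. -/
def mag (M : Conf n → Conf n → ℝ) (g : Conf n) (i : Fin n) : ℝ := av M (fun z => vec z i) g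

/-- The overlap. -/
noncomputable def qv (M : Conf n → Conf n → ℝ) (g : Conf n) : ℝ :=
  (n : ℝ)⁻¹ * ∑ i, mag M g i ^ 2

/-- The variance of the coupling field. -/
noncomputable def rv (β : ℝ) (M : Conf n → Conf n → ℝ) (g : Conf n) : ℝ := β ^ 2 * (1 - qv M g)

/-- The cavity field. -/
noncomputable def cav (β : ℝ) (K : Matrix (Fin n) (Fin n) ℝ) (M : Conf n → Conf n → ℝ) (g : Conf n)
    (i : Fin n) : ℝ :=
  av M (fun z => (K *ᵥ vec z) i) g - rv β M g * mag M g i

/-- Sine or cosine. -/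
noncomputable def phase (c : Bool) : ℝ := if c then π / 2 else 0

/-- The wave at a site with a given spin. -/
noncomputable def siteWave (K : Matrix (Fin n) (Fin n) ℝ) (ξ : ℝ) (c b : Bool) (i : Fin n)
    (z : Conf n) : ℝ :=
  if z i = b then sin (ξ * (K *ᵥ vec z) i + phase c) else 0

/-- The mean of the wave under the normal law of the picture. -/
noncomputable def target (ξ : ℝ) (c b : Bool) (μ R : ℝ) : ℝ :=
  exp (-(ξ ^ 2 * R) / 2) * sin (ξ * (μ + spin b * R) + phase c)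

/-- The distance of the magnetisations from the cavity equation. -/
noncomputable def magErr (β : ℝ) (K : Matrix (Fin n) (Fin n) ℝ) (S : Finset (Fin n))
    (M : Conf n → Conf n → ℝ) (g : Conf n) : ℝ :=
  (n : ℝ)⁻¹ * ∑ i ∈ Sᶜ, |mag M g i - tanh (cav β K M g i)|

/-- The distance of the waves from the picture. -/
noncomputable def waveErr (β : ℝ) (K : Matrix (Fin n) (Fin n) ℝ) (S : Finset (Fin n))
    (M : Conf n → Conf n → ℝ) (ξ : ℝ) (c b : Bool) (g : Conf n) : ℝ :=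
  (n : ℝ)⁻¹ * ∑ i ∈ Sᶜ, |av M (siteWave K ξ c b i) g
    - (1 + spin b * mag M g i) / 2 * target ξ c b (cav β K M g i) (rv β M g)|

/-- The cavity picture with the wave tests `Ξ`. -/
structure Pic (β : ℝ) (K : Matrix (Fin n) (Fin n) ℝ) (ν : Conf n → ℝ) (S : Finset (Fin n))
    (M : Conf n → Conf n → ℝ) (θ : ℝ) (Ξ : Finset ℝ) : Prop extends Far ν S M where
  magSmall : ∑ g, ν g * magErr β K S M g ≤ θ
  waveSmall : ∀ ξ ∈ Ξ, ∀ c b, ∑ g, ν g * waveErr β K S M ξ c b g ≤ θ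

variable {ν : Conf n → ℝ} {S : Finset (Fin n)} {M : Conf n → Conf n → ℝ} {β : ℝ}
  {K : Matrix (Fin n) (Fin n) ℝ}

theorem av_mono (hM : Far ν S M) {f f' : Conf n → ℝ} (h : ∀ z, f z ≤ f' z) (g : Conf n) :
    av M f g ≤ av M f' g :=
  sum_le_sum fun z _ => mul_le_mul_of_nonneg_left (h z) (hM.nn g z)

theorem av_const (hM : Far ν S M) (c : ℝ) (g : Conf n) : av M (fun _ => c) g = c := by
  rw [av, ← sum_mul, hM.row, one_mul]

theorem abs_av_sub_le (hM : Far ν S M) (f : Conf n → ℝ) (c : ℝ) (g : Conf n) :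
    |av M f g - c| ≤ av M (fun z => |f z - c|) g := by
  conv_lhs => rw [← av_const hM c g, av, av, ← sum_sub_distrib]
  refine (abs_sum_le_sum_abs _ _).trans (le_of_eq (sum_congr rfl fun z _ => ?_))
  rw [← mul_sub, abs_mul, abs_of_nonneg (hM.nn g z)]

theorem mean_abs_av_le (hM : Far ν S M) (hν : ∀ x, 0 ≤ ν x) (f : Conf n → ℝ) (c : ℝ) :
    ∑ g, ν g * |av M f g - c| ≤ ∑ g, ν g * |f g - c| :=
  (sum_le_sum fun g _ => mul_le_mul_of_nonneg_left (abs_av_sub_le hM f c g) (hν g)).trans_eq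
    (hM.stat fun z => |f z - c|)

theorem abs_mag_le (hM : Far ν S M) (g : Conf n) (i : Fin n) : |mag M g i| ≤ 1 := by
  have h := abs_av_sub_le hM (fun z => vec z i) 0 g
  simpa [vec, abs_spin, av_const hM, mag] using h

theorem mag_pin (hM : Far ν S M) (g : Conf n) {i : Fin n} (hi : i ∈ S) : mag M g i = vec g i := by
  rw [mag, ← av_const hM (vec g i) g]
  refine sum_congr rfl fun z _ => ?_
  by_cases hz : z ∈ fib S g
  · simp only [vec, mem_fib.1 hz i hi]
  · rw [hM.supp g z hz, zero_mul, zero_mul]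

theorem qv_mem (hM : Far ν S M) (g : Conf n) : 0 ≤ qv M g ∧ qv M g ≤ 1 := by
  refine ⟨mul_nonneg (by positivity) (sum_nonneg fun i _ => sq_nonneg _), ?_⟩
  rcases Nat.eq_zero_or_pos n with h | h
  · subst h; simp [qv]
  have hn : (0 : ℝ) < n := by exact_mod_cast h
  rw [qv, inv_mul_le_iff₀ hn, mul_one]
  refine (sum_le_sum (g := fun _ => (1 : ℝ)) fun i _ =>
    (sq_le_one_iff_abs_le_one _).2 (abs_mag_le hM g i)).trans ?_
  simp

theorem rv_mem (hβ : β ^ 2 ≤ 1) (hM : Far ν S M) (g : Conf n) : 0 ≤ rv β M g ∧ rv β M g ≤ 1 := by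
  obtain ⟨h0, h1⟩ := qv_mem hM g
  exact ⟨mul_nonneg (sq_nonneg β) (sub_nonneg.2 h1),
    (mul_le_of_le_one_right (sq_nonneg β) (sub_le_self _ h0)).trans hβ⟩

theorem cav_eq (g : Conf n) (i : Fin n) :
    cav β K M g i = (K *ᵥ mag M g) i - rv β M g * mag M g i := by
  simp only [cav, Matrix.mulVec, dotProduct, mag, av, mul_sum]
  rw [sum_comm]
  exact congrArg (· - _) (sum_congr rfl fun j _ => sum_congr rfl fun z _ => by ring)

theorem sum_cav_sq (hβ : β ^ 2 ≤ 1) (hM : Far ν S M)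
    (hK : ∀ v : Fin n → ℝ, ∑ i, (K *ᵥ v) i ^ 2 ≤ 9 * ∑ i, v i ^ 2) (g : Conf n) :
    ∑ i, cav β K M g i ^ 2 ≤ 20 * ∑ i, mag M g i ^ 2 := by
  obtain ⟨r0, r1⟩ := rv_mem hβ hM g
  have h : ∀ i, cav β K M g i ^ 2 ≤ 2 * (K *ᵥ mag M g) i ^ 2 + 2 * mag M g i ^ 2 := fun i => by
    rw [cav_eq]
    have hr : (rv β M g * mag M g i) ^ 2 ≤ mag M g i ^ 2 := by
      rw [mul_pow]; exact mul_le_of_le_one_left (sq_nonneg _) (pow_le_one₀ r0 r1)
    linarith [sq_nonneg ((K *ᵥ mag M g) i + rv β M g * mag M g i)]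
  refine (sum_le_sum fun i _ => h i).trans ?_
  rw [sum_add_distrib, ← mul_sum, ← mul_sum]
  linarith [hK (mag M g)]

theorem sum_mag_sq (hn : 0 < n) (g : Conf n) : ∑ i, mag M g i ^ 2 = n * qv M g := by
  rw [qv, ← mul_assoc, mul_inv_cancel₀ (by positivity), one_mul]

theorem mean_cav_sq (hn : 0 < n) (hβ : β ^ 2 ≤ 1) (hM : Far ν S M)
    (hK : ∀ v : Fin n → ℝ, ∑ i, (K *ᵥ v) i ^ 2 ≤ 9 * ∑ i, v i ^ 2) (g : Conf n) :
    ∑ i, cav β K M g i ^ 2 ≤ 20 * n * qv M g ∧ ∑ i, cav β K M g i ^ 2 ≤ 20 * n := by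
  have h := sum_cav_sq hβ hM hK g
  rw [sum_mag_sq hn, ← mul_assoc] at h
  exact ⟨h, h.trans (mul_le_of_le_one_right (by positivity) (qv_mem hM g).2)⟩

theorem satS_tanh (μ : ℝ) : satS (tanh μ) ≤ tanh μ * μ := by
  set P : ℝ → ℝ := fun t => t + t ^ 3 / 3 + t ^ 5 / 5 + t ^ 7 / 7 with hP
  have hd : ∀ x, HasDerivAt (fun x => x - P (tanh x)) (tanh x ^ 8) x := fun x => by
    have h := hasDerivAt_tanh' x
    refine ((hasDerivAt_id' x).sub (((h.add ((h.pow 3).div_const 3)).add ((h.pow 5).div_const 5)).add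
      ((h.pow 7).div_const 7))).congr_deriv ?_
    norm_num
    ring
  have hm : Monotone fun x => x - P (tanh x) :=
    monotone_of_hasDerivAt_nonneg hd fun x => (show Even 8 by decide).pow_nonneg _
  have e : satS (tanh μ) = tanh μ * P (tanh μ) := by simp only [satS, hP]; ring
  rw [e]
  rcases le_total 0 μ with h | h
  · have h0 := hm h
    simp [hP] at h0
    have ht : 0 ≤ tanh μ := by
      rw [tanh_eq_sinh_div_cosh]; exact div_nonneg (sinh_nonneg_iff.2 h) (cosh_pos μ).le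
    exact mul_le_mul_of_nonneg_left (by simp only [hP]; linarith) ht
  · have h0 := hm h
    simp [hP] at h0
    have ht : tanh μ ≤ 0 := by
      rw [tanh_eq_sinh_div_cosh]
      exact div_nonpos_of_nonpos_of_nonneg (sinh_nonpos_iff.2 h) (cosh_pos μ).le
    exact mul_le_mul_of_nonpos_left (by simp only [hP]; linarith) ht

theorem satS_lip {a b : ℝ} (ha : |a| ≤ 1) (hb : |b| ≤ 1) : |satS a - satS b| ≤ 6 * |a - b| := by
  have hd : ∀ x, HasDerivAt satS (2 * x + 4 * x ^ 3 / 3 + 6 * x ^ 5 / 5 + 8 * x ^ 7 / 7) x := fun x => by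
    exact ((((hasDerivAt_pow 2 x).add ((hasDerivAt_pow 4 x).div_const 3)).add
      ((hasDerivAt_pow 6 x).div_const 5)).add ((hasDerivAt_pow 8 x).div_const 7)).congr_deriv
        (by norm_num)
  have h := Convex.norm_image_sub_le_of_norm_hasDerivWithin_le (C := 6) (s := Set.Icc (-1 : ℝ) 1)
    (fun x _ => (hd x).hasDerivWithinAt) (fun x hx => ?_) (convex_Icc _ _) (abs_le.1 hb) (abs_le.1 ha)
  · simpa [Real.norm_eq_abs] using h
  · have hx' : |x| ≤ 1 := abs_le.2 hx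
    have hp : ∀ k : ℕ, |x ^ k| ≤ 1 := fun k => by rw [abs_pow]; exact pow_le_one₀ (abs_nonneg x) hx'
    rw [Real.norm_eq_abs, abs_le]
    constructor <;>
      linarith [(abs_le.1 (hp 3)).1, (abs_le.1 (hp 3)).2, (abs_le.1 (hp 5)).1, (abs_le.1 (hp 5)).2,
        (abs_le.1 (hp 7)).1, (abs_le.1 (hp 7)).2, hx.1, hx.2]

/-- At zero pinning the overlap is small when the cavity equation holds. -/
theorem overlap_le (hn : 0 < n) (hβ : β ^ 2 ≤ 1) (hM : Far ν ∅ M)
    (hK : ∀ v : Fin n → ℝ, ∑ i, (K *ᵥ v) i ^ 2 ≤ 9 * ∑ i, v i ^ 2) {τ κ : ℝ} (hτ : 0 ≤ τ)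
    (hκ : 0 < κ) (hκ1 : κ ≤ 1)
    (hSF : ∀ m : Fin n → ℝ, (∀ i, |m i| ≤ 1) → τ * n ≤ ∑ i, m i ^ 2 →
      Ent.qform K m + κ * n ≤ ∑ i, satS (m i) + β ^ 2 * (1 - qn m) * ∑ i, m i ^ 2) (g : Conf n) :
    qv M g ≤ τ + 200 / κ ^ 2 * magErr β K ∅ M g := by
  have hn' : (0 : ℝ) < n := by exact_mod_cast hn
  obtain ⟨q0, q1⟩ := qv_mem hM g
  by_contra hlt
  push Not at hlt
  have hE : 0 ≤ magErr β K ∅ M g := mul_nonneg (by positivity) (sum_nonneg fun i _ => abs_nonneg _)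
  have he : magErr β K ∅ M g < κ ^ 2 / 200 := by
    by_contra hh
    push Not at hh
    have : 1 ≤ 200 / κ ^ 2 * magErr β K ∅ M g := by
      rw [div_mul_eq_mul_div, le_div_iff₀ (by positivity)]; linarith
    linarith
  set m := mag M g with hm
  set μ := cav β K M g with hμ
  have hqn : qn m = qv M g := by rw [qn, qv, div_eq_inv_mul]
  have hτq : τ * n ≤ ∑ i, m i ^ 2 := by
    rw [sum_mag_sq hn, mul_comm τ]
    have hp : 0 ≤ 200 / κ ^ 2 * magErr β K ∅ M g := mul_nonneg (by positivity) hE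
    exact mul_le_mul_of_nonneg_left (by linarith) hn'.le
  have h := hSF m (abs_mag_le hM g) hτq
  rw [hqn] at h
  have hq : Ent.qform K m = ∑ i, m i * μ i + rv β M g * ∑ i, m i ^ 2 := by
    rw [mul_sum, ← sum_add_distrib]
    refine sum_congr rfl fun i _ => ?_
    rw [hμ, cav_eq, Matrix.mulVec, dotProduct, mul_sub, mul_sum, ← hm]
    rw [show m i * (rv β M g * m i) = rv β M g * m i ^ 2 by ring, sub_add_cancel]
    exact sum_congr rfl fun j _ => by ring
  have hpt : ∀ i, satS (m i) ≤ m i * μ i + (6 + 20 / κ) * |m i - tanh (μ i)| + κ / 40 * μ i ^ 2 := by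
    intro i
    set d := |m i - tanh (μ i)| with hd
    have h1 := (abs_le.1 (satS_lip (abs_mag_le hM g i) (abs_tanh_lt_one (μ i)).le)).2
    have h2 := satS_tanh (μ i)
    have hd2 : d ≤ 2 := (abs_sub _ _).trans (by linarith [abs_mag_le hM g i, abs_tanh_lt_one (μ i)])
    have h3 : (tanh (μ i) - m i) * μ i ≤ 20 / κ * d + κ / 40 * μ i ^ 2 := by
      refine (le_abs_self _).trans ?_
      rw [abs_mul, abs_sub_comm, ← hd]
      have k := sq_nonneg (20 * d - κ * |μ i|)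
      have e : κ / 40 * μ i ^ 2 + 20 / κ * d
          = (κ ^ 2 * |μ i| ^ 2 + 800 * d) / (40 * κ) := by rw [sq_abs]; field_simp; ring
      rw [add_comm, e, le_div_iff₀ (by positivity)]
      linarith [mul_le_mul_of_nonneg_left hd2 (abs_nonneg (m i - tanh (μ i)))]
    linarith
  have hsum := sum_le_sum (s := univ) fun i _ => hpt i
  rw [sum_add_distrib, sum_add_distrib, ← mul_sum, ← mul_sum] at hsum
  have hmu := (mean_cav_sq hn hβ hM hK g).2
  have hmag : ∑ i, |m i - tanh (μ i)| = n * magErr β K ∅ M g := by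
    rw [magErr, compl_empty, ← mul_assoc, mul_inv_cancel₀ hn'.ne', one_mul]
  rw [hmag] at hsum
  have hc : (6 + 20 / κ) * magErr β K ∅ M g < κ / 2 := by
    refine (mul_lt_mul_of_pos_left he (by positivity)).trans_le ?_
    rw [show (6 + 20 / κ) * (κ ^ 2 / 200) = (6 * κ ^ 2 + 20 * κ) / 200 by field_simp]
    nlinarith
  have hc' := mul_lt_mul_of_pos_left hc hn'
  have hκμ := mul_le_mul_of_nonneg_left hmu (show (0 : ℝ) ≤ κ / 40 by positivity)
  rw [hq, rv] at h
  linarith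

theorem abs_exp_sub_le {x y : ℝ} (hx : x ≤ 0) (hy : y ≤ 0) : |exp x - exp y| ≤ |x - y| := by
  have h : ∀ a b : ℝ, a ≤ b → b ≤ 0 → exp b - exp a ≤ b - a := fun a b hab hb => by
    have e : exp a = exp b * exp (a - b) := by rw [← exp_add]; ring_nf
    have h1 := add_one_le_exp (a - b)
    have h2 := mul_le_mul_of_nonneg_left h1 (exp_pos b).le
    have h3 : exp b * (b - a) ≤ 1 * (b - a) :=
      mul_le_mul_of_nonneg_right (exp_le_one_iff.2 hb) (sub_nonneg.2 hab)
    linarith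
  rcases le_total x y with hxy | hxy
  · rw [abs_sub_comm, abs_of_nonneg (sub_nonneg.2 (exp_le_exp.2 hxy)), abs_sub_comm,
      abs_of_nonneg (sub_nonneg.2 hxy)]
    exact h x y hxy hy
  · rw [abs_of_nonneg (sub_nonneg.2 (exp_le_exp.2 hxy)), abs_of_nonneg (sub_nonneg.2 hxy)]
    exact h y x hxy hx

theorem abs_target_le (ξ : ℝ) (c b : Bool) (μ : ℝ) {R : ℝ} (hR : 0 ≤ R) :
    |target ξ c b μ R| ≤ 1 := by
  rw [target, abs_mul, abs_of_pos (exp_pos _)]
  refine mul_le_one₀ (exp_le_one_iff.2 ?_) (abs_nonneg _) (abs_sin_le_one _)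
  linarith [mul_nonneg (sq_nonneg ξ) hR]

theorem target_lip (ξ : ℝ) (c b : Bool) (μ μ' : ℝ) {R R' : ℝ} (hR : 0 ≤ R) (hR' : 0 ≤ R') :
    |target ξ c b μ R - target ξ c b μ' R'| ≤ |ξ| * |μ - μ'| + (|ξ| + ξ ^ 2) * |R - R'| := by
  set A := ξ * (μ + spin b * R) + phase c with hA
  set B := ξ * (μ' + spin b * R') + phase c with hB
  have h0 : -(ξ ^ 2 * R) / 2 ≤ 0 := by linarith [mul_nonneg (sq_nonneg ξ) hR]
  have h0' : -(ξ ^ 2 * R') / 2 ≤ 0 := by linarith [mul_nonneg (sq_nonneg ξ) hR']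
  have e : target ξ c b μ R - target ξ c b μ' R'
      = exp (-(ξ ^ 2 * R) / 2) * (sin A - sin B)
        + (exp (-(ξ ^ 2 * R) / 2) - exp (-(ξ ^ 2 * R') / 2)) * sin B := by
    simp only [target, ← hA, ← hB]; ring
  rw [e]
  refine (abs_add_le _ _).trans ?_
  rw [abs_mul, abs_mul, abs_of_pos (exp_pos _)]
  have h1 : |sin A - sin B| ≤ |A - B| := by
    simpa [Real.dist_eq] using lipschitzWith_sin.dist_le_mul A B
  have h2 : |A - B| ≤ |ξ| * |μ - μ'| + |ξ| * |R - R'| := by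
    rw [show A - B = ξ * (μ - μ') + ξ * (spin b * (R - R')) by rw [hA, hB]; ring]
    refine (abs_add_le _ _).trans (le_of_eq ?_)
    simp [abs_mul, abs_spin]
  have h3 : |exp (-(ξ ^ 2 * R) / 2) - exp (-(ξ ^ 2 * R') / 2)| ≤ ξ ^ 2 * |R - R'| := by
    refine (abs_exp_sub_le h0 h0').trans ?_
    rw [show -(ξ ^ 2 * R) / 2 - -(ξ ^ 2 * R') / 2 = -(ξ ^ 2 / 2) * (R - R') by ring, abs_mul, abs_neg,
      abs_of_nonneg (by positivity)]
    exact mul_le_mul_of_nonneg_right (by linarith [sq_nonneg ξ]) (abs_nonneg _)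
  have h4 := (mul_le_of_le_one_left (abs_nonneg (sin A - sin B)) (exp_le_one_iff.2 h0)).trans
    (h1.trans h2)
  have h5 := (mul_le_of_le_one_right (abs_nonneg _) (abs_sin_le_one B)).trans h3
  linarith

/-- The wave at the sites of `U`. -/
noncomputable def setWave (K : Matrix (Fin n) (Fin n) ℝ) (U : Finset (Fin n)) (ξ : ℝ) (c b : Bool)
    (z : Conf n) : ℝ := (n : ℝ)⁻¹ * ∑ i ∈ U, siteWave K ξ c b i z

theorem av_setWave (U : Finset (Fin n)) (ξ : ℝ) (c b : Bool) (g : Conf n) :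
    av M (setWave K U ξ c b) g = (n : ℝ)⁻¹ * ∑ i ∈ U, av M (siteWave K ξ c b i) g := by
  simp only [av, setWave, mul_sum]
  rw [sum_comm]
  exact sum_congr rfl fun i _ => sum_congr rfl fun z _ => by ring

/-- At zero pinning the mean waves of every set of sites are those of the field `N(bβ², β²)`. -/
theorem zero_wave (hn : 0 < n) (hβ : β ^ 2 ≤ 1) (hM : Far ν ∅ M)
    (hK : ∀ v : Fin n → ℝ, ∑ i, (K *ᵥ v) i ^ 2 ≤ 9 * ∑ i, v i ^ 2) (U : Finset (Fin n)) (ξ : ℝ)
    (c b : Bool) {a : ℝ} (ha : 0 < a) (g : Conf n) :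
    |av M (setWave K U ξ c b) g - (U.card : ℝ) / n * (target ξ c b 0 (β ^ 2) / 2)|
      ≤ waveErr β K ∅ M ξ c b g + (1 + |ξ| + ξ ^ 2) * (a + (12 / a + 1) * qv M g) := by
  have hn' : (0 : ℝ) < n := by exact_mod_cast hn
  obtain ⟨q0, q1⟩ := qv_mem hM g
  obtain ⟨r0, -⟩ := rv_mem hβ hM g
  set P := 1 + |ξ| + ξ ^ 2 with hP
  set A := target ξ c b 0 (β ^ 2) / 2 with hA
  have hpt : ∀ i, |(1 + spin b * mag M g i) / 2 * target ξ c b (cav β K M g i) (rv β M g) - A|
      ≤ P * (|mag M g i| + |cav β K M g i| + qv M g) := by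
    intro i
    have h1 := abs_target_le ξ c b (cav β K M g i) r0
    have h2 := target_lip ξ c b (cav β K M g i) 0 r0 (sq_nonneg β)
    rw [sub_zero, rv, show β ^ 2 * (1 - qv M g) - β ^ 2 = -(β ^ 2 * qv M g) by ring, abs_neg,
      abs_of_nonneg (mul_nonneg (sq_nonneg β) q0), ← rv] at h2
    have h3 : (|ξ| + ξ ^ 2) * (β ^ 2 * qv M g) ≤ P * qv M g :=
      mul_le_mul (by linarith) (mul_le_of_le_one_left q0 hβ) (mul_nonneg (sq_nonneg β) q0)
        (by positivity)
    rw [show (1 + spin b * mag M g i) / 2 * target ξ c b (cav β K M g i) (rv β M g) - A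
      = spin b * mag M g i * target ξ c b (cav β K M g i) (rv β M g) / 2
        + (target ξ c b (cav β K M g i) (rv β M g) - target ξ c b 0 (β ^ 2)) / 2 by rw [hA]; ring]
    refine (abs_add_le _ _).trans ?_
    rw [abs_div, abs_div, abs_two, abs_mul, abs_mul, abs_spin, one_mul]
    have h4 := mul_le_of_le_one_right (abs_nonneg (mag M g i)) h1
    have h5 : |mag M g i| ≤ P * |mag M g i| :=
      le_mul_of_one_le_left (abs_nonneg _) (by rw [hP]; linarith [abs_nonneg ξ, sq_nonneg ξ])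
    have h6 : |ξ| * |cav β K M g i| ≤ P * |cav β K M g i| :=
      mul_le_mul_of_nonneg_right (by rw [hP]; linarith [sq_nonneg ξ]) (abs_nonneg _)
    linarith [abs_nonneg (mag M g i), mul_nonneg (by positivity : 0 ≤ P) (abs_nonneg (mag M g i)),
      mul_nonneg (by positivity : 0 ≤ P) (abs_nonneg (cav β K M g i)),
      mul_nonneg (by positivity : 0 ≤ P) q0]
  have hab : ∀ x : ℝ, |x| ≤ a / 2 + x ^ 2 / (2 * a) := fun x => by
    rw [div_add_div _ _ two_ne_zero (by positivity), le_div_iff₀ (by positivity), ← sq_abs x]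
    linarith [sq_nonneg (a - |x|)]
  have e : (U.card : ℝ) / n * A = (n : ℝ)⁻¹ * ∑ _i ∈ U, A := by
    rw [sum_const, nsmul_eq_mul]; ring
  rw [av_setWave, e, ← mul_sub, ← sum_sub_distrib, abs_mul, abs_of_pos (inv_pos.2 hn'), waveErr,
    compl_empty, inv_mul_le_iff₀ hn', mul_add (n : ℝ), ← mul_assoc, mul_inv_cancel₀ hn'.ne', one_mul]
  refine (abs_sum_le_sum_abs _ _).trans ((sum_le_sum_of_subset_of_nonneg (subset_univ U) fun i _ _ =>
    abs_nonneg _).trans ?_)
  refine (sum_le_sum fun i _ => (abs_sub_le _ ((1 + spin b * mag M g i) / 2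
    * target ξ c b (cav β K M g i) (rv β M g)) _).trans (add_le_add le_rfl (hpt i))).trans ?_
  rw [sum_add_distrib, ← mul_sum, ← mul_assoc, mul_comm (n : ℝ) P, mul_assoc]
  refine add_le_add le_rfl (mul_le_mul_of_nonneg_left ?_ (by positivity))
  refine (sum_le_sum fun i _ => add_le_add (add_le_add (hab (mag M g i)) (hab (cav β K M g i)))
    le_rfl).trans ?_
  simp only [sum_add_distrib, ← sum_div, sum_const, card_univ, Fintype.card_fin, nsmul_eq_mul]
  have hm : (∑ i, cav β K M g i ^ 2) / (2 * a) ≤ 20 * n * qv M g / (2 * a) :=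
    div_le_div_of_nonneg_right (mean_cav_sq hn hβ hM hK g).1 (by positivity)
  rw [sum_mag_sq hn]
  have e2 : (n : ℝ) * qv M g / (2 * a) + 20 * n * qv M g / (2 * a) ≤ n * (12 / a * qv M g) := by
    rw [← add_div, show (n : ℝ) * (12 / a * qv M g) = 24 * (n * qv M g) / (2 * a) by ring]
    exact div_le_div_of_nonneg_right (by linarith [mul_nonneg hn'.le q0]) (by positivity)
  linarith

end Vale.Agent.P150.Fast.Entropy
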